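import Mathlib

namespace Vale.Agent.P159

open MeasureTheory Finset Filter Topology

/-- The circle of turns. -/
abbrev Turn := UnitAddCircle

/-- Cosine of the angle. -/
noncomputable def cs (x : Turn) : ℝ := (AddCircle.toCircle x : ℂ).re

/-- Sine of the angle. -/
noncomputable def sn (x : Turn) : ℝ := (AddCircle.toCircle x : ℂ).im

lemma continuous_cs : Continuous cs :=
  Complex.continuous_re.comp (continuous_subtype_val.comp AddCircle.continuous_toCircle)

lemma continuous_sn : Continuous sn :=
  Complex.continuous_im.comp (continuous_subtype_val.comp AddCircle.continuous_toCircle)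

lemma cs_sq_add_sn_sq (x : Turn) : cs x ^ 2 + sn x ^ 2 = 1 := by
  have h : Complex.normSq (AddCircle.toCircle x : ℂ) = 1 := Circle.normSq_coe _
  rw [Complex.normSq_apply] at h
  unfold cs sn
  linarith

lemma abs_cs_le (x : Turn) : |cs x| ≤ 1 := by
  rw [abs_le_one_iff_mul_self_le_one]
  nlinarith [cs_sq_add_sn_sq x, sq_nonneg (sn x)]

lemma cs_add (x y : Turn) : cs (x + y) = cs x * cs y - sn x * sn y := by
  simp [cs, sn, AddCircle.toCircle_add, Complex.mul_re]

lemma sn_add (x y : Turn) : sn (x + y) = sn x * cs y + cs x * sn y := by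
  simp [cs, sn, AddCircle.toCircle_add, Complex.mul_im]
  ring

lemma cs_neg (x : Turn) : cs (-x) = cs x := by
  simp [cs, AddCircle.toCircle_neg, ← Circle.coe_inv_eq_conj]

lemma sn_neg (x : Turn) : sn (-x) = -sn x := by
  simp [sn, AddCircle.toCircle_neg, ← Circle.coe_inv_eq_conj]

lemma cs_zero : cs 0 = 1 := by simp [cs]

lemma sn_zero : sn 0 = 0 := by simp [sn]

lemma cs_sub (x y : Turn) : cs (x - y) = cs x * cs y + sn x * sn y := by
  rw [sub_eq_add_neg, cs_add, cs_neg, sn_neg]; ring

lemma sn_sub (x y : Turn) : sn (x - y) = sn x * cs y - cs x * sn y := by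
  rw [sub_eq_add_neg, sn_add, cs_neg, sn_neg]; ring

/-- Half a turn. -/
noncomputable def half : Turn := ((1 / 2 : ℝ) : Turn)

lemma cs_half : cs half = -1 := by
  simp [cs, half, AddCircle.toCircle_apply_mk, Circle.coe_exp]
  ring_nf
  simp [Complex.exp_re]

lemma sn_half : sn half = 0 := by
  simp [sn, half, AddCircle.toCircle_apply_mk, Circle.coe_exp]
  ring_nf
  simp [Complex.exp_im]

instance : IsProbabilityMeasure (volume : Measure Turn) :=
  ⟨by rw [AddCircle.measure_univ]; exact ENNReal.ofReal_one⟩

variable {A B : Type} [Fintype A] [Fintype B]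

instance : IsProbabilityMeasure (volume : Measure (A → Turn)) :=
  inferInstanceAs (IsProbabilityMeasure (Measure.pi fun _ : A => (volume : Measure Turn)))

lemma continuous_integrable {F : (A → Turn) → ℝ} (hF : Continuous F) : Integrable F :=
  hF.integrable_of_hasCompactSupport (HasCompactSupport.of_compactSpace F)

/-- A continuous surjective homomorphism preserves integrals. -/
lemma integral_comp_hom (T : (A → Turn) →+ (B → Turn)) (hT : Continuous T)
    (hS : Function.Surjective T) {F : (B → Turn) → ℝ} (hF : Continuous F) :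
    ∫ x, F (T x) = ∫ y, F y := by
  have h := T.measurePreserving (μ := volume) (ν := volume) hT hS (by simp)
  rw [← h.map_eq, integral_map h.measurable.aemeasurable]
  exact hF.aestronglyMeasurable

lemma integral_translate (a : A → Turn) (F : (A → Turn) → ℝ) :
    ∫ x, F (x + a) = ∫ x, F x := integral_add_right_eq_self F a

lemma moment_nonneg (a b : ℕ) : 0 ≤ ∫ x : Turn, cs x ^ a * sn x ^ b := by
  rcases Nat.even_or_odd a with ha | ha
  · rcases Nat.even_or_odd b with hb | hb
    · exact integral_nonneg fun x => mul_nonneg (ha.pow_nonneg _) (hb.pow_nonneg _)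
    · have h := integral_neg_eq_self (fun x : Turn => cs x ^ a * sn x ^ b) volume
      simp only [cs_neg, sn_neg, hb.neg_pow, mul_neg, integral_neg] at h
      linarith
  · have h1 := integral_neg_eq_self (fun x : Turn => cs x ^ a * sn x ^ b) volume
    have h2 := integral_add_right_eq_self (μ := (volume : Measure Turn))
      (fun x : Turn => cs x ^ a * sn x ^ b) half
    simp only [cs_add, sn_add, cs_half, sn_half, mul_zero, sub_zero, add_zero, mul_neg, mul_one,
      ha.neg_pow] at h2
    simp only [cs_neg, sn_neg] at h1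
    rcases Nat.even_or_odd b with hb | hb
    · simp only [hb.neg_pow, neg_mul, integral_neg] at h2
      linarith
    · simp only [hb.neg_pow, neg_mul, mul_neg, neg_neg, integral_neg] at h1 h2
      linarith

/-- A family of test functions pairing nonnegatively with `H`. -/
def Good (S : Set ((A → Turn) → ℝ)) (H : (A → Turn) → ℝ) : Prop :=
  Continuous H ∧ ∀ g ∈ S, 0 ≤ ∫ x, H x * g x

/-- Multiplication by `F` preserves `Good`. -/
def Pres (S : Set ((A → Turn) → ℝ)) (F : (A → Turn) → ℝ) : Prop :=
  Continuous F ∧ ∀ H, Good S H → Good S (fun x => F x * H x)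

variable {S : Set ((A → Turn) → ℝ)}

lemma Pres.congr {F G : (A → Turn) → ℝ} (hF : Pres S F) (h : ∀ x, F x = G x) : Pres S G := by
  have : F = G := funext h
  exact this ▸ hF

lemma Pres.mul {F G : (A → Turn) → ℝ} (hF : Pres S F) (hG : Pres S G) :
    Pres S fun x => F x * G x :=
  ⟨hF.1.mul hG.1, fun H hH => by simpa only [mul_assoc] using hF.2 _ (hG.2 H hH)⟩

lemma pres_const {c : ℝ} (hc : 0 ≤ c) : Pres S fun _ => c :=
  ⟨continuous_const, fun H hH => ⟨continuous_const.mul hH.1, fun g hg => by
    simp only [mul_assoc, integral_const_mul]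
    exact mul_nonneg hc (hH.2 g hg)⟩⟩

lemma Pres.add {F G : (A → Turn) → ℝ} (hS : ∀ g ∈ S, Continuous g) (hF : Pres S F)
    (hG : Pres S G) : Pres S fun x => F x + G x :=
  ⟨hF.1.add hG.1, fun H hH => ⟨(hF.1.add hG.1).mul hH.1, fun g hg => by
    simp only [add_mul]
    rw [integral_add (continuous_integrable ((hF.1.fun_mul hH.1).fun_mul (hS g hg)))
      (continuous_integrable ((hG.1.fun_mul hH.1).fun_mul (hS g hg)))]
    exact add_nonneg ((hF.2 H hH).2 g hg) ((hG.2 H hH).2 g hg)⟩⟩

lemma pres_gen {F : (A → Turn) → ℝ} (hF : Continuous F)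
    (h : ∀ g ∈ S, (fun x => F x * g x) ∈ S) : Pres S F :=
  ⟨hF, fun H hH => ⟨hF.mul hH.1, fun g hg => by
    have := hH.2 _ (h g hg)
    simpa only [mul_assoc, mul_left_comm (H _)] using this⟩⟩

lemma Pres.sum {ι : Type} (s : Finset ι) {F : ι → (A → Turn) → ℝ}
    (hS : ∀ g ∈ S, Continuous g) (hF : ∀ i ∈ s, Pres S (F i)) :
    Pres S fun x => ∑ i ∈ s, F i x := by
  classical
  induction s using Finset.induction_on with
  | empty => simpa using pres_const (S := S) (le_refl (0 : ℝ))
  | insert a s ha ih =>
    simp only [sum_insert ha]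
    exact (hF a (mem_insert_self a s)).add hS (ih fun i hi => hF i (mem_insert_of_mem hi))

lemma Pres.pow {F : (A → Turn) → ℝ} (hF : Pres S F) (n : ℕ) : Pres S fun x => F x ^ n := by
  induction n with
  | zero => simpa using pres_const (S := S) zero_le_one
  | succ n ih => simpa only [pow_succ] using ih.mul hF

lemma Pres.exp {F : (A → Turn) → ℝ} (hS : ∀ g ∈ S, Continuous g) (hF : Pres S F) :
    Pres S fun x => Real.exp (F x) := by
  refine ⟨Real.continuous_exp.comp hF.1, fun H hH =>
    ⟨(Real.continuous_exp.comp hF.1).mul hH.1, fun g hg => ?_⟩⟩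
  obtain ⟨M, hM⟩ := (isCompact_range hF.1).isBounded.exists_norm_le
  have hn : ∀ n : ℕ, 0 ≤ ∫ x, (1 + F x / n) ^ n * H x * g x := fun n =>
    ((((pres_const (S := S) zero_le_one).add hS
      ((pres_const (S := S) (inv_nonneg.mpr (Nat.cast_nonneg n))).mul hF)).pow n).congr
        (G := fun x => (1 + F x / n) ^ n) (fun x => by ring)).2 H hH |>.2 g hg
  refine ge_of_tendsto' (tendsto_integral_of_dominated_convergence
    (bound := fun x => Real.exp M * (|H x| * |g x|)) (fun n => ?_) ?_ (fun n => ?_) ?_) hn
  · exact (((continuous_const.add (hF.1.div_const _)).pow n).mul hH.1 |>.mul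
      (hS g hg)).aestronglyMeasurable
  · exact continuous_integrable (continuous_const.mul (hH.1.abs.mul (hS g hg).abs))
  · refine Eventually.of_forall fun x => ?_
    rw [Real.norm_eq_abs, abs_mul, abs_mul, abs_pow, mul_assoc]
    refine mul_le_mul_of_nonneg_right ?_ (by positivity)
    have h1 : |F x| ≤ M := by simpa using hM _ ⟨x, rfl⟩
    rcases Nat.eq_zero_or_pos n with rfl | hn0
    · simpa using Real.one_le_exp ((abs_nonneg _).trans h1)
    · have h2 : |1 + F x / n| ≤ Real.exp (M / n) := by
        refine ((abs_add_le _ _).trans (le_of_eq (by rw [abs_one, abs_div, Nat.abs_cast]))).trans ?_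
        refine le_trans ?_ (Real.add_one_le_exp _)
        rw [add_comm]
        gcongr
      refine (pow_le_pow_left₀ (abs_nonneg _) h2 n).trans (le_of_eq ?_)
      rw [← Real.exp_nat_mul]
      field_simp
  · exact Eventually.of_forall fun x =>
      ((Real.tendsto_one_add_div_pow_exp (F x)).mul_const _).mul_const _

lemma Pres.integral_nonneg {F : (A → Turn) → ℝ} (h1 : (fun _ => (1 : ℝ)) ∈ S)
    (hone : Good S fun _ => 1) (hF : Pres S F) : 0 ≤ ∫ x, F x := by
  simpa using (hF.2 _ hone).2 _ h1

/-- Monomials in the sines and cosines of all angles. -/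
def monomials (A : Type) [Fintype A] : Set ((A → Turn) → ℝ) :=
  Set.range fun e : (A → ℕ) × (A → ℕ) => fun x => ∏ i, cs (x i) ^ e.1 i * sn (x i) ^ e.2 i

lemma monomials_continuous : ∀ g ∈ monomials A, Continuous g := by
  rintro g ⟨e, rfl⟩
  exact continuous_finsetProd _ fun i _ =>
    ((continuous_cs.comp (continuous_apply i)).pow _).mul
      ((continuous_sn.comp (continuous_apply i)).pow _)

lemma one_mem_monomials : (fun _ => (1 : ℝ)) ∈ monomials A := ⟨(0, 0), by simp⟩

lemma good_one_monomials : Good (monomials A) fun _ => 1 := by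
  refine ⟨continuous_const, ?_⟩
  rintro g ⟨e, rfl⟩
  simp only [one_mul, volume_pi]
  rw [integral_fintype_prod_eq_prod (fun i (z : Turn) => cs z ^ e.1 i * sn z ^ e.2 i)]
  exact prod_nonneg fun i _ => moment_nonneg _ _

lemma pres_cs (i : A) : Pres (monomials A) fun x => cs (x i) := by
  classical
  refine pres_gen (continuous_cs.comp (continuous_apply i)) ?_
  rintro g ⟨e, rfl⟩
  refine ⟨(e.1 + Pi.single i 1, e.2), funext fun x => ?_⟩
  simp only [Pi.add_apply, pow_add, Finset.prod_mul_distrib]
  rw [prod_eq_single (f := fun j => cs (x j) ^ (Pi.single i 1 : A → ℕ) j) i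
    (fun j _ hj => by simp [hj]) (by simp)]
  simp
  ring

lemma pres_sn (i : A) : Pres (monomials A) fun x => sn (x i) := by
  classical
  refine pres_gen (continuous_sn.comp (continuous_apply i)) ?_
  rintro g ⟨e, rfl⟩
  refine ⟨(e.1, e.2 + Pi.single i 1), funext fun x => ?_⟩
  simp only [Pi.add_apply, pow_add, Finset.prod_mul_distrib]
  rw [prod_eq_single (f := fun j => sn (x j) ^ (Pi.single i 1 : A → ℕ) j) i
    (fun j _ hj => by simp [hj]) (by simp)]
  simp
  ring

end Vale.Agent.P159
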