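import Vale.Agent.P159.Lattice

namespace Vale.Agent.P159

open MeasureTheory Finset Filter Topology

variable {b : ℝ} {R : ℕ}

lemma geom_finset_le {q : ℝ} (hq : 0 ≤ q) (hq1 : q < 1) (S : Finset ℤ) :
    ∑ k ∈ S, q ^ k.natAbs ≤ 2 / (1 - q) := by
  have key : ∀ T : Finset ℤ, Set.InjOn Int.natAbs (T : Set ℤ) →
      ∑ k ∈ T, q ^ k.natAbs ≤ (1 - q)⁻¹ := by
    intro T hT
    rw [← sum_image hT (f := fun n : ℕ => q ^ n), ← tsum_geometric_of_lt_one hq hq1]
    exact Summable.sum_le_tsum _ (fun n _ => pow_nonneg hq n)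
      (summable_geometric_of_lt_one hq hq1)
  rw [← sum_filter_add_sum_filter_not S (fun k => 0 ≤ k), div_eq_mul_inv, two_mul]
  refine add_le_add (key _ ?_) (key _ ?_)
  · intro x hx y hy h; simp at hx hy; omega
  · intro x hx y hy h; simp at hx hy; omega

lemma chi_bound (hb : 0 < b) (hm : 0 < mass b) (u : ↥(box R)) :
    ∑ v, cbox R b u v ≤ 36 / (min 1 (mass b)) ^ 2 := by
  set μ := min 1 (mass b)
  have hμ : 0 < μ := lt_min one_pos hm
  set q := Real.exp (-(μ / 2))
  have hq0 : 0 ≤ q := (Real.exp_pos _).le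
  have hq1 : q ≤ 1 - μ / 3 := by
    have h1 := Real.add_one_le_exp (μ / 2)
    have hμ1 : μ ≤ 1 := min_le_left _ _
    have h2 : q * Real.exp (μ / 2) = 1 := by rw [← Real.exp_add]; simp
    nlinarith
  have hqlt : q < 1 := by linarith
  have h1 : ∑ v : ↥(box R), cbox R b u v
      ≤ ∑ v : ↥(box R), q ^ (v.1.1 - u.1.1).natAbs * q ^ (v.1.2 - u.1.2).natAbs := by
    refine sum_le_sum fun v _ => ?_
    have h := xyCorr_le_Cinf hb.le R u.1 v.1
    rw [xyCorr_eq b u.2 v.2] at h
    refine (h.trans (decay hb _)).trans ?_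
    have hmq : Real.exp (-(mass b / 2)) ≤ q :=
      Real.exp_le_exp.mpr (by linarith [min_le_right 1 (mass b)])
    exact mul_le_mul (pow_le_pow_left₀ (Real.exp_pos _).le hmq _)
      (pow_le_pow_left₀ (Real.exp_pos _).le hmq _) (pow_nonneg (Real.exp_pos _).le _)
      (pow_nonneg hq0 _)
  refine h1.trans ?_
  rw [sum_coe_sort (box R) (fun z => q ^ (z.1 - u.1.1).natAbs * q ^ (z.2 - u.1.2).natAbs)]
  have hbx : box R = Icc (-(R : ℤ)) R ×ˢ Icc (-(R : ℤ)) R := by
    ext z; rw [mem_box, mem_product, mem_Icc, mem_Icc]; simp only [nrm]; omega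
  rw [sum_congr hbx fun _ _ => rfl, sum_product]
  simp only [← mul_sum, ← sum_mul]
  have hside : ∀ c : ℤ, ∑ k ∈ Icc (-(R : ℤ)) R, q ^ (k - c).natAbs ≤ 2 / (1 - q) := by
    intro c
    rw [← sum_image (f := fun k : ℤ => q ^ k.natAbs) (g := fun k => k - c)
      (fun x _ y _ h => by simpa using h)]
    exact geom_finset_le hq0 hqlt _
  have hb2 : 2 / (1 - q) ≤ 6 / μ := by
    rw [div_le_div_iff₀ (by linarith) hμ]; linarith
  refine (mul_le_mul ((hside _).trans hb2) ((hside _).trans hb2)
    (sum_nonneg fun _ _ => pow_nonneg hq0 _) (by positivity)).trans (le_of_eq ?_)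
  ring

/-- The number of neighbours is at most four, with weight one half each. -/
lemma adj_row (x : ↥(box R)) : ∑ y, adj x y ≤ 2 := by
  unfold adj
  rw [← sum_filter, sum_const, nsmul_eq_mul]
  have h : (univ.filter fun y : ↥(box R) =>
      (x.1.1 - y.1.1).natAbs + (x.1.2 - y.1.2).natAbs = 1).card ≤ 4 := by
    refine le_trans (card_le_card_of_injOn (fun y => y.1)
      (t := ({(x.1.1 + 1, x.1.2), (x.1.1 - 1, x.1.2), (x.1.1, x.1.2 + 1), (x.1.1, x.1.2 - 1)} :
        Finset (ℤ × ℤ))) ?_ (fun p _ q _ h => Subtype.ext h)) ?_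
    · intro y hy
      simp only [coe_filter, mem_univ, true_and, Set.mem_setOf_eq] at hy
      simp only [coe_insert, coe_singleton, Set.mem_insert_iff, Set.mem_singleton_iff,
        Prod.ext_iff]
      omega
    · exact card_le_four
  have : ((univ.filter fun y : ↥(box R) =>
      (x.1.1 - y.1.1).natAbs + (x.1.2 - y.1.2).natAbs = 1).card : ℝ) ≤ 4 := by exact_mod_cast h
  linarith

lemma cbox_mono (hb : 0 ≤ b) {b' : ℝ} (h : b ≤ b') (u v : ↥(box R)) :
    cbox R b u v ≤ cbox R b' u v :=
  corr_mono (fun x y => mul_nonneg hb (adj_nonneg x y))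
    (fun x y => mul_le_mul_of_nonneg_right h (adj_nonneg x y)) u v

lemma hasDerivAt_cbox (u v : ↥(box R)) (t : ℝ) :
    HasDerivAt (fun t => cbox R t u v)
      (∑ x, ∑ y, adj x y * covar (fun x y => t * adj x y) u v x y) t := by
  have h := hasDerivAt_corr (fun _ _ : ↥(box R) => (0 : ℝ)) adj u v t
  simp only [zero_add] at h
  exact h

/-- The derivative of a susceptibility. -/
lemma susc_deriv_le {s G : ℝ} (hs0 : 0 ≤ s) (hG : ∀ x : ↥(box R), ∑ v, cbox R s x v ≤ G)
    (u : ↥(box R)) :
    ∑ v : ↥(box R), ∑ x : ↥(box R), ∑ y : ↥(box R), adj x y * covar (fun x y => s * adj x y) u v x y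
      ≤ 2 * G * ∑ v, cbox R s u v := by
  have hJ : ∀ x y : ↥(box R), 0 ≤ s * adj x y := fun x y => mul_nonneg hs0 (adj_nonneg x y)
  have hG0 : 0 ≤ G := (sum_nonneg fun v _ => cbox_nonneg hs0 u v).trans (hG u)
  rw [sum_comm]
  have hx : ∀ x : ↥(box R),
      ∑ v : ↥(box R), ∑ y : ↥(box R), adj x y * covar (fun x y => s * adj x y) u v x y
      ≤ ∑ y : ↥(box R), (adj x y * cbox R s u x * (G / 2) + adj x y * cbox R s u y * (G / 2)) := by
    intro x
    rw [sum_comm]
    refine sum_le_sum fun y _ => ?_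
    rw [← mul_sum, mul_assoc, mul_assoc, ← mul_add]
    refine mul_le_mul_of_nonneg_left ?_ (adj_nonneg x y)
    refine (sum_le_sum fun v _ => covar_le hJ u v x y).trans ?_
    rw [← sum_div, sum_add_distrib, ← mul_sum, ← mul_sum]
    have e : ∀ z, ∑ v, corr (fun x y => s * adj x y) v z = ∑ v, cbox R s z v := fun z =>
      sum_congr rfl fun v _ => corr_comm v z
    rw [e y, e x]
    have h1 := mul_le_mul_of_nonneg_left (hG y) (cbox_nonneg hs0 u x)
    have h2 := mul_le_mul_of_nonneg_left (hG x) (cbox_nonneg hs0 u y)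
    unfold cbox at h1 h2 ⊢
    linarith
  refine (sum_le_sum fun x _ => hx x).trans ?_
  simp only [sum_add_distrib]
  rw [sum_comm (f := fun x y => adj x y * cbox R s u y * (G / 2))]
  simp only [← sum_mul]
  rw [← add_mul]
  have h1 : ∑ x : ↥(box R), (∑ y, adj x y) * cbox R s u x ≤ 2 * ∑ x, cbox R s u x := by
    rw [mul_sum]
    exact sum_le_sum fun x _ => mul_le_mul_of_nonneg_right (adj_row x) (cbox_nonneg hs0 u x)
  have h2 : ∑ y : ↥(box R), (∑ x, adj x y) * cbox R s u y ≤ 2 * ∑ x, cbox R s u x := by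
    rw [mul_sum]
    refine sum_le_sum fun y _ => mul_le_mul_of_nonneg_right ?_ (cbox_nonneg hs0 u y)
    exact (sum_congr rfl fun x _ => adj_symm x y).trans_le (adj_row y)
  refine (mul_le_mul_of_nonneg_right (add_le_add h1 h2) (by linarith)).trans (le_of_eq ?_)
  ring

lemma chi_stable (hb : 0 ≤ b) {b' : ℝ} (hbb : b ≤ b') {X : ℝ} (hX : 0 < X)
    (hchi : ∀ u : ↥(box R), ∑ v, cbox R b u v ≤ X) (hΔ : 8 * (b' - b) * X < 1) :
    ∀ u : ↥(box R), ∑ v, cbox R b' u v ≤ 2 * X := by
  have hne : (univ : Finset ↥(box R)).Nonempty :=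
    ⟨⟨0, mem_box.mpr (by simp [nrm])⟩, mem_univ _⟩
  set S : ↥(box R) → ℝ → ℝ := fun u t => ∑ v, cbox R t u v with hS
  set g : ℝ → ℝ := fun t => univ.sup' hne (fun u => S u t) with hg
  have hSc : ∀ u, Continuous (S u) := fun u =>
    continuous_finsetSum _ fun v _ => continuous_iff_continuousAt.mpr fun t =>
      (hasDerivAt_cbox u v t).continuousAt
  have hgc : Continuous g := Continuous.finset_sup'_apply hne fun u _ => hSc u
  have hle : ∀ u t, S u t ≤ g t := fun u t => le_sup' (fun u => S u t) (mem_univ u)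
  have hkey : ∀ t ∈ Set.Icc b b', g t ≤ X + 2 * (t - b) * g t ^ 2 := by
    intro t ht
    refine sup'_le hne _ fun u _ => ?_
    have hmvt : S u t - S u b ≤ 2 * g t ^ 2 * (t - b) := by
      refine Convex.image_sub_le_mul_sub_of_deriv_le (convex_Icc b t) (hSc u).continuousOn
        (fun s _ => (HasDerivAt.fun_sum fun v _ => hasDerivAt_cbox u v s).differentiableAt.differentiableWithinAt)
        (fun s hs => ?_) b (Set.left_mem_Icc.mpr ht.1) t (Set.right_mem_Icc.mpr ht.1) ht.1
      rw [interior_Icc] at hs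
      rw [(HasDerivAt.fun_sum fun v _ => hasDerivAt_cbox u v s).deriv]
      have hs0 : 0 ≤ s := hb.trans hs.1.le
      have hJ : ∀ x y : ↥(box R), 0 ≤ s * adj x y := fun x y => mul_nonneg hs0 (adj_nonneg x y)
      have hmono : ∀ x, S x s ≤ g t := fun x =>
        (sum_le_sum fun v _ => cbox_mono hs0 hs.2.le x v).trans (hle x t)
      have hg0 : 0 ≤ g t := (sum_nonneg fun v _ => cbox_nonneg (hb.trans ht.1) u v).trans (hle u t)
      exact (susc_deriv_le hs0 hmono u).trans (by nlinarith [hmono u])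
    have h0 : S u b ≤ X := hchi u
    linarith
  have hnever : ∀ t ∈ Set.Icc b b', g t ≠ 2 * X := by
    intro t ht heq
    have h := hkey t ht
    rw [heq] at h
    nlinarith [ht.2]
  have hbound : g b' ≤ 2 * X := by
    by_contra hcon
    push Not at hcon
    have h1 : g b ≤ X := sup'_le hne _ fun u _ => hchi u
    obtain ⟨t, ht, hteq⟩ := intermediate_value_Icc hbb hgc.continuousOn
      (show 2 * X ∈ Set.Icc (g b) (g b') from ⟨by linarith, hcon.le⟩)
    exact hnever t ht hteq
  exact fun u => (hle u b').trans hbound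

/-- The pair of shells at radii `r` and `r+1`. -/
noncomputable def shell (r : ℕ) : Finset (ℤ × ℤ) :=
  ((Finset.Icc (-((r : ℤ) + 1)) ((r : ℤ) + 1)) ×ˢ (Finset.Icc (-((r : ℤ) + 1)) ((r : ℤ) + 1))).filter
    fun z => r ≤ nrm z ∧ nrm z ≤ r + 1

lemma mem_shell {r : ℕ} {z : ℤ × ℤ} : z ∈ shell r ↔ r ≤ nrm z ∧ nrm z ≤ r + 1 := by
  rw [shell, mem_filter, mem_product, mem_Icc, mem_Icc]
  simp only [nrm]
  omega

/-- The finite criterion. -/
noncomputable def crit (b : ℝ) (r : ℕ) : ℝ := 2 * b * ∑ z ∈ shell r, Cinf b z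

/-- Cutting the bonds between a set of sites and its complement. -/
lemma cut_bound {V : Type} [Fintype V] (J : V → V → ℝ) (hJ : ∀ x y, 0 ≤ J x y)
    (hJs : ∀ x y, J x y = J y x) (p : V → Bool) (u v : V) (hu : p u = true) (hv : p v = false) :
    corr J u v ≤ ∑ x, corr J u x * ∑ y, (if p x = p y then 0 else J x y) * corr J v y := by
  set J₀ : V → V → ℝ := fun x y => if p x = p y then J x y else 0 with hJ₀d
  set K : V → V → ℝ := fun x y => if p x = p y then 0 else J x y with hKd
  have hJ₀ : ∀ x y, 0 ≤ J₀ x y := fun x y => by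
    simp only [hJ₀d]; split_ifs <;> [exact hJ x y; exact le_rfl]
  have hK : ∀ x y, 0 ≤ K x y := fun x y => by
    simp only [hKd]; split_ifs <;> [exact le_rfl; exact hJ x y]
  have hsum : ∀ x y, J₀ x y + K x y = J x y := fun x y => by
    simp only [hJ₀d, hKd]; split_ifs <;> ring
  have hKsymm : ∀ x y, K x y = K y x := fun x y => by
    simp only [hKd, hJs x y, eq_comm (a := p x)]
  have hzero : corr J₀ u v = 0 := by
    set a : V → Turn := fun x => if p x = true then half else 0 with ha
    have ht := integral_translate a fun θ => obs u v θ * Real.exp (ham J₀ θ)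
    have e : ∀ θ, obs u v (θ + a) * Real.exp (ham J₀ (θ + a))
        = -(obs u v θ * Real.exp (ham J₀ θ)) := by
      intro θ
      have e1 : obs u v (θ + a) = -obs u v θ := by
        simp [obs, ha, hu, hv, add_sub_right_comm, cs_add, cs_half, sn_half]
      have e2 : ham J₀ (θ + a) = ham J₀ θ := by
        refine sum_congr rfl fun x _ => sum_congr rfl fun y _ => ?_
        by_cases hxy : p x = p y
        · have : a x = a y := by simp only [ha, hxy]
          simp [this, add_sub_add_right_eq_sub]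
        · simp [hJ₀d, hxy]
      rw [e1, e2]; ring
    simp only [e, integral_neg] at ht
    have h : num J₀ (obs u v) = 0 := by unfold num; linarith
    rw [corr, h, zero_div]
  have hd := hasDerivAt_corr J₀ K u v
  have hfull : ∀ s ∈ Set.Icc (0 : ℝ) 1, ∀ x y,
      corr (fun x y => J₀ x y + s * K x y) x y ≤ corr J x y := by
    intro s hs x y
    refine corr_mono (fun x y => add_nonneg (hJ₀ x y) (mul_nonneg hs.1 (hK x y)))
      (fun x y => ?_) x y
    rw [← hsum]
    nlinarith [hK x y, hs.2]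
  have hmvt := Convex.image_sub_le_mul_sub_of_deriv_le (convex_Icc (0 : ℝ) 1)
    (fun s _ => (hd s).continuousAt.continuousWithinAt)
    (fun s _ => (hd s).differentiableAt.differentiableWithinAt)
    (C := ∑ x, corr J u x * ∑ y, K x y * corr J v y) (fun s hs => ?_)
    0 (by simp) 1 (by simp) zero_le_one
  · simp only [zero_mul, one_mul, add_zero, hzero, sub_zero, mul_one] at hmvt
    have e : (fun x y => J₀ x y + K x y) = J := funext fun x => funext (hsum x)
    rw [e] at hmvt
    exact hmvt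
  rw [interior_Icc] at hs
  rw [(hd s).deriv]
  have hs' : s ∈ Set.Icc (0 : ℝ) 1 := Set.Ioo_subset_Icc_self hs
  have hJt : ∀ x y, 0 ≤ J₀ x y + s * K x y := fun x y =>
    add_nonneg (hJ₀ x y) (mul_nonneg hs'.1 (hK x y))
  calc ∑ x, ∑ y, K x y * covar (fun x y => J₀ x y + s * K x y) u v x y
      ≤ ∑ x, ∑ y, (K x y * (corr J u x * corr J v y) / 2
          + K x y * (corr J u y * corr J v x) / 2) := by
        refine sum_le_sum fun x _ => sum_le_sum fun y _ => ?_
        rw [← add_div, ← mul_add, mul_div_assoc]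
        refine mul_le_mul_of_nonneg_left ?_ (hK x y)
        refine (covar_le hJt u v x y).trans (div_le_div_of_nonneg_right (add_le_add ?_ ?_) two_pos.le)
        · exact mul_le_mul (hfull s hs' u x) (hfull s hs' v y) (corr_nonneg hJt v y)
            (corr_nonneg hJ u x)
        · exact mul_le_mul (hfull s hs' u y) (hfull s hs' v x) (corr_nonneg hJt v x)
            (corr_nonneg hJ u y)
    _ = ∑ x, corr J u x * ∑ y, K x y * corr J v y := by
        simp only [sum_add_distrib]
        rw [sum_comm (f := fun x y => K x y * (corr J u y * corr J v x) / 2), ← sum_add_distrib]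
        refine sum_congr rfl fun x _ => ?_
        rw [← sum_add_distrib, mul_sum]
        exact sum_congr rfl fun y _ => by rw [hKsymm y x]; ring

lemma simon_step (hb : 0 ≤ b) (r : ℕ) (u v : ↥(box R)) (hv : r < nrm (v.1 - u.1)) {P : ℝ}
    (hP : ∀ y : ↥(box R), nrm (y.1 - u.1) ≤ r + 1 → cbox R b y v ≤ P) (hP0 : 0 ≤ P) :
    cbox R b u v ≤ crit b r * P := by
  set ins : ↥(box R) → Bool := fun x => decide (nrm (x.1 - u.1) ≤ r) with hins
  set K : ↥(box R) → ↥(box R) → ℝ := fun x y => if ins x = ins y then 0 else b * adj x y with hKd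
  have hJ : ∀ x y : ↥(box R), 0 ≤ b * adj x y := fun x y => mul_nonneg hb (adj_nonneg x y)
  have hK : ∀ x y, 0 ≤ K x y := fun x y => by
    simp only [hKd]; split_ifs <;> [exact le_rfl; exact hJ x y]
  have hcut : cbox R b u v ≤ ∑ x, cbox R b u x * ∑ y, K x y * cbox R b v y :=
    cut_bound (fun x y => b * adj x y) hJ (fun x y => by rw [adj_symm]) ins u v
      (by simp [hins, nrm]) (by simpa [hins] using hv)
  calc cbox R b u v ≤ ∑ x, cbox R b u x * ∑ y, K x y * cbox R b v y := hcut
    _ ≤ ∑ x : ↥(box R), (if x.1 - u.1 ∈ shell r then 2 * b * Cinf b (x.1 - u.1) * P else 0) := by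
        refine sum_le_sum fun x _ => ?_
        have hrow : ∀ y, K x y ≠ 0 →
            x.1 - u.1 ∈ shell r ∧ nrm (y.1 - u.1) ≤ r + 1 := by
          intro y hy
          have hne : ins x ≠ ins y := fun h => hy (by simp [hKd, h])
          have hadj : (x.1.1 - y.1.1).natAbs + (x.1.2 - y.1.2).natAbs = 1 := by
            by_contra hno
            exact hy (by simp [hKd, adj, hno])
          simp only [hins, ne_eq, decide_eq_decide] at hne
          rw [mem_shell]
          simp only [nrm, Prod.fst_sub, Prod.snd_sub] at hne ⊢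
          omega
        by_cases hx : x.1 - u.1 ∈ shell r
        · rw [if_pos hx]
          have h1 : cbox R b u x ≤ Cinf b (x.1 - u.1) := by
            have := xyCorr_le_Cinf hb R u.1 x.1
            rwa [xyCorr_eq b u.2 x.2] at this
          have h2 : ∑ y, K x y * cbox R b v y ≤ 2 * b * P := by
            calc ∑ y, K x y * cbox R b v y ≤ ∑ y, b * adj x y * P := by
                  refine sum_le_sum fun y _ => ?_
                  rcases eq_or_ne (K x y) 0 with hk | hk
                  · rw [hk, zero_mul]; exact mul_nonneg (mul_nonneg hb (adj_nonneg x y)) hP0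
                  · refine mul_le_mul ?_ (le_trans (le_of_eq (corr_comm v y)) (hP y (hrow y hk).2))
                      (cbox_nonneg hb v y) (mul_nonneg hb (adj_nonneg x y))
                    simp only [hKd]; split_ifs <;> [exact hJ x y; exact le_rfl]
              _ = b * (∑ y, adj x y) * P := by simp only [mul_sum, sum_mul]
              _ ≤ _ := by
                  have := mul_le_mul_of_nonneg_left (adj_row x) hb
                  nlinarith
          refine (mul_le_mul h1 h2 (sum_nonneg fun y _ => mul_nonneg (hK x y) (cbox_nonneg hb v y))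
            (Cinf_nonneg hb _)).trans (le_of_eq (by ring))
        · rw [if_neg hx]
          refine le_of_eq ?_
          rw [sum_eq_zero fun y _ => ?_, mul_zero]
          rcases eq_or_ne (K x y) 0 with hk | hk
          · rw [hk, zero_mul]
          · exact absurd (hrow y hk).1 hx
    _ ≤ crit b r * P := by
        rw [← sum_filter, crit, mul_sum, sum_mul,
          ← sum_image (f := fun z => 2 * b * Cinf b z * P) (g := fun x : ↥(box R) => x.1 - u.1)
          (fun p _ q _ h => Subtype.ext (sub_left_injective h))]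
        refine sum_le_sum_of_subset_of_nonneg (fun z hz => ?_) fun z _ _ =>
          mul_nonneg (mul_nonneg (by linarith) (Cinf_nonneg hb z)) hP0
        obtain ⟨x, hx, rfl⟩ := mem_image.mp hz
        exact (mem_filter.mp hx).2

lemma crit_nonneg (hb : 0 ≤ b) (r : ℕ) : 0 ≤ crit b r :=
  mul_nonneg (by linarith) (sum_nonneg fun z _ => Cinf_nonneg hb z)

lemma simon_iter (hb : 0 ≤ b) (r : ℕ) {a : ℝ} (ha : crit b r ≤ a) :
    ∀ (k : ℕ) (u v : ↥(box R)), k * (r + 1) < nrm (v.1 - u.1) → cbox R b u v ≤ a ^ k := by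
  intro k
  induction k with
  | zero => exact fun u v _ => by simpa [cbox] using corr_le_one u v
  | succ k ih =>
    intro u v h
    have ha0 : 0 ≤ a := (crit_nonneg hb r).trans ha
    have hexp : (k + 1) * (r + 1) = k * (r + 1) + (r + 1) := by ring
    refine (simon_step hb r u v (by omega) (P := a ^ k)
      (fun y hy => ih y v ?_) (pow_nonneg ha0 k)).trans ?_
    · have := nrm_add (v.1 - y.1) (y.1 - u.1)
      rw [sub_add_sub_cancel] at this
      omega
    · rw [pow_succ']; exact mul_le_mul_of_nonneg_right ha (pow_nonneg ha0 k)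

lemma crit_small (hb : 0 < b) {X : ℝ} (hX : ∀ R (u : ↥(box R)), ∑ v, cbox R b u v ≤ X) :
    ∃ r, crit b r ≤ 1 / 2 := by
  by_contra h
  push Not at h
  have hFin : ∀ F : Finset (ℤ × ℤ), ∑ z ∈ F, Cinf b z ≤ X := by
    intro F
    refine le_of_tendsto' (tendsto_finsetSum F fun z _ => tendsto_Cinf hb.le z) fun R => ?_
    have h0 : (0 : ℤ × ℤ) ∈ box R := mem_box.mpr (by simp [nrm])
    refine le_trans ?_ (hX R ⟨0, h0⟩)
    have e : ∑ v : ↥(box R), cbox R b ⟨0, h0⟩ v = ∑ z ∈ box R, xyCorr R b 0 z := by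
      rw [← sum_coe_sort (box R) (fun z => xyCorr R b 0 z)]
      exact sum_congr rfl fun v _ => (xyCorr_eq b h0 v.2).symm
    rw [e, ← sum_filter_add_sum_filter_not F (fun z => z ∈ box R),
      sum_eq_zero (s := F.filter fun z => ¬ z ∈ box R) (fun z hz => by
        rw [xyCorr, dif_neg fun hh => (mem_filter.mp hz).2 hh.2]), add_zero]
    exact sum_le_sum_of_subset_of_nonneg (fun z hz => (mem_filter.mp hz).2)
      fun z _ _ => xyCorr_nonneg hb.le R 0 z
  obtain ⟨N, hN⟩ := exists_nat_gt (4 * b * X)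
  have h1 := hFin ((range N).biUnion fun j => shell (2 * j))
  rw [sum_biUnion (fun i _ j _ hij => disjoint_left.mpr fun z hi hj => by
    rw [mem_shell] at hi hj; omega)] at h1
  have h2 : (N : ℝ) * (1 / (4 * b)) ≤ ∑ j ∈ range N, ∑ z ∈ shell (2 * j), Cinf b z := by
    calc (N : ℝ) * (1 / (4 * b)) = ∑ _j ∈ range N, 1 / (4 * b) := by simp
      _ ≤ _ := sum_le_sum fun j _ => by
        have := h (2 * j)
        unfold crit at this
        rw [div_le_iff₀ (by linarith)]
        linarith
  have h3 := h2.trans h1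
  rw [mul_one_div, div_le_iff₀ (by linarith)] at h3
  linarith

lemma mass_pos_of_chi (hb : 0 < b) {X : ℝ} (hX : ∀ R (u : ↥(box R)), ∑ v, cbox R b u v ≤ X) :
    0 < mass b := by
  obtain ⟨r, hr⟩ := crit_small hb hX
  set L := r + 1
  have hseq : ∀ k : ℕ, 1 ≤ k → Real.log 2 / (L + 1) ≤ nlog b (k * L + 1) / ((k * L + 1 : ℕ) : ℝ) := by
    intro k hk
    have hC : Cinf b (((k * L + 1 : ℕ) : ℤ), 0) ≤ (1 / 2) ^ k := by
      refine le_of_tendsto' (tendsto_Cinf hb.le _) fun R => ?_
      by_cases h : (0 : ℤ × ℤ) ∈ box R ∧ (((k * L + 1 : ℕ) : ℤ), (0 : ℤ)) ∈ box R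
      · rw [xyCorr_eq b h.1 h.2]
        refine simon_iter hb.le r hr k _ _ ?_
        simp only [L, nrm, Prod.fst_sub, Prod.snd_sub, Prod.fst_zero, Prod.snd_zero, sub_zero,
          Int.natAbs_natCast, Int.natAbs_zero]
        omega
      · rw [xyCorr, dif_neg h]; positivity
    have hn : 0 < Cinf b (((k * L + 1 : ℕ) : ℤ), 0) := Cinf_axis_pos hb _ (by omega)
    have h := Real.log_le_log hn hC
    rw [Real.log_pow, one_div, Real.log_inv] at h
    have hl : 0 < Real.log 2 := Real.log_pos one_lt_two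
    rw [nlog, if_neg (by omega), div_le_div_iff₀ (by positivity) (by positivity)]
    push_cast
    have hk' : (1 : ℝ) ≤ k := by exact_mod_cast hk
    have hL' : (0 : ℝ) ≤ L := Nat.cast_nonneg _
    push_cast at h
    have h' := mul_le_mul_of_nonneg_right h (show (0 : ℝ) ≤ L + 1 by linarith)
    nlinarith [mul_nonneg hl.le (sub_nonneg.mpr hk')]
  have ht : Tendsto (fun k : ℕ => k * L + 1) atTop atTop :=
    tendsto_atTop_mono (fun k => by simp only [id_eq]; have : k ≤ k * L := Nat.le_mul_of_pos_right k (by omega); omega)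
      tendsto_id
  have := ge_of_tendsto ((mass_tendsto hb).comp ht)
    (eventually_atTop.mpr ⟨1, fun k hk => hseq k hk⟩)
  exact lt_of_lt_of_le (div_pos (Real.log_pos one_lt_two) (by positivity)) this

/-- Square-root upper bound on the inverse correlation length below a massless point. -/
theorem mass_sqrt_bound {b' : ℝ} (hb : 0 < b) (hbb : b < b') (hm : mass b' = 0) :
    min 1 (mass b) ≤ 17 * Real.sqrt (b' - b) := by
  rcases (mass_nonneg hb).eq_or_lt with h | h
  · rw [← h, min_eq_right zero_le_one]; positivity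
  set μ := min 1 (mass b) with hμ
  have hμ0 : 0 < μ := lt_min one_pos h
  by_contra hcon
  push Not at hcon
  have hsq : 289 * (b' - b) < μ ^ 2 := by
    have h1 : (17 * Real.sqrt (b' - b)) ^ 2 < μ ^ 2 :=
      pow_lt_pow_left₀ hcon (by positivity) two_ne_zero
    rw [mul_pow, Real.sq_sqrt (by linarith)] at h1
    linarith
  have hΔ : 8 * (b' - b) * (36 / μ ^ 2) < 1 := by
    rw [mul_div_assoc', div_lt_one (by positivity)]
    nlinarith
  have hX : ∀ R (u : ↥(box R)), ∑ v, cbox R b' u v ≤ 2 * (36 / μ ^ 2) := fun R =>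
    chi_stable hb.le hbb.le (by positivity) (fun u => chi_bound hb h u) hΔ
  have := mass_pos_of_chi (hb.trans hbb) hX
  linarith

end Vale.Agent.P159
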