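import Vale.Agent.P159.Lattice

namespace Vale.Agent.P159

open Finset Filter Topology

/-- An antiderivative of the squared Cauchy kernel. -/
noncomputable def kerPrim (a y : ℝ) : ℝ :=
  y / (2 * a ^ 2 * (y ^ 2 + a ^ 2)) + Real.arctan (y / a) / (2 * a ^ 3)

lemma hasDerivAt_kerPrim {a : ℝ} (ha : 0 < a) (y : ℝ) :
    HasDerivAt (kerPrim a) (1 / (y ^ 2 + a ^ 2) ^ 2) y := by
  have hd : 2 * a ^ 2 * (y ^ 2 + a ^ 2) ≠ 0 := by positivity
  have h1 := (hasDerivAt_id y).div
    (((hasDerivAt_pow 2 y).add_const (a ^ 2)).const_mul (2 * a ^ 2)) hd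
  have h2 := ((hasDerivAt_id y).div_const a).arctan.div_const (2 * a ^ 3)
  refine (h1.add h2).congr_deriv ?_
  simp only [id_eq]
  have : (1 : ℝ) + (y / a) ^ 2 ≠ 0 := by positivity
  have : y ^ 2 + a ^ 2 ≠ 0 := by positivity
  field_simp
  ring

lemma kerPrim_le {a : ℝ} (ha : 0 < a) (y : ℝ) : kerPrim a y ≤ Real.pi / (4 * a ^ 3) := by
  have hmono : Monotone (kerPrim a) :=
    monotone_of_hasDerivAt_nonneg (fun y => hasDerivAt_kerPrim ha y) fun y => by positivity
  have hlim : Tendsto (kerPrim a) atTop (𝓝 (Real.pi / (4 * a ^ 3))) := by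
    have h1 : Tendsto (fun y : ℝ => y / (2 * a ^ 2 * (y ^ 2 + a ^ 2))) atTop (𝓝 0) := by
      refine squeeze_zero' (eventually_ge_atTop (1 : ℝ) |>.mono fun y hy => by positivity)
        (eventually_ge_atTop (1 : ℝ) |>.mono fun y hy => ?_)
        (tendsto_inv_atTop_zero.const_mul (1 / (2 * a ^ 2)) |>.trans (by simp))
      rw [div_le_iff₀ (by positivity)]
      field_simp
      nlinarith
    have h2 : Tendsto (fun y : ℝ => Real.arctan (y / a)) atTop (𝓝 (Real.pi / 2)) :=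
      (tendsto_nhds_of_tendsto_nhdsWithin Real.tendsto_arctan_atTop).comp
        (tendsto_id.atTop_div_const ha)
    have := h1.add (h2.div_const (2 * a ^ 3))
    rw [zero_add, show Real.pi / 2 / (2 * a ^ 3) = Real.pi / (4 * a ^ 3) by ring] at this
    exact this
  exact hmono.ge_of_tendsto hlim y

lemma sum_ker_range {a : ℝ} (ha : 0 < a) (n : ℕ) :
    ∑ k ∈ range n, 1 / (((k : ℝ) + 1) ^ 2 + a ^ 2) ^ 2 ≤ kerPrim a n := by
  induction n with
  | zero => simp [kerPrim]
  | succ n ih =>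
    have h := (convex_Icc (n : ℝ) (n + 1)).mul_sub_le_image_sub_of_le_deriv
      (f := kerPrim a) (fun x _ => (hasDerivAt_kerPrim ha x).continuousAt.continuousWithinAt)
      (fun x _ => (hasDerivAt_kerPrim ha x).differentiableAt.differentiableWithinAt)
      (C := 1 / (((n : ℝ) + 1) ^ 2 + a ^ 2) ^ 2) (fun x hx => ?_)
      n (by simp) (n + 1) (by simp) (by linarith)
    · rw [sum_range_succ]
      push_cast
      linarith
    · rw [interior_Icc] at hx
      rw [(hasDerivAt_kerPrim ha x).deriv]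
      have hn : (0 : ℝ) ≤ n := Nat.cast_nonneg n
      have hx0 : 0 ≤ x := hn.trans hx.1.le
      have := hx.2.le
      gcongr

lemma sum_ker_int {a : ℝ} (ha : 0 < a) (S : Finset ℤ) :
    ∑ k ∈ S, 1 / ((k : ℝ) ^ 2 + a ^ 2) ^ 2 ≤ Real.pi / (2 * a ^ 3) + 1 / a ^ 4 := by
  set g : ℤ → ℝ := fun k => 1 / ((k : ℝ) ^ 2 + a ^ 2) ^ 2 with hg
  set n := S.sup Int.natAbs with hn
  have hsub : S ⊆ insert 0 ((range n).image (fun k : ℕ => (k : ℤ) + 1)
      ∪ (range n).image (fun k : ℕ => -((k : ℤ) + 1))) := by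
    intro k hk
    have hle : k.natAbs ≤ n := le_sup (f := Int.natAbs) hk
    simp only [mem_insert, mem_union, mem_image, mem_range]
    rcases lt_trichotomy k 0 with h | h | h
    · exact Or.inr (Or.inr ⟨k.natAbs - 1, by omega, by omega⟩)
    · exact Or.inl h
    · exact Or.inr (Or.inl ⟨k.natAbs - 1, by omega, by omega⟩)
  refine (sum_le_sum_of_subset_of_nonneg hsub fun k _ _ => by positivity).trans ?_
  rw [sum_insert (by
    simp only [mem_union, mem_image, mem_range, not_or, not_exists, not_and]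
    exact ⟨fun p _ => by omega, fun p _ => by omega⟩), sum_union (by
    rw [disjoint_left]; intro x hx hx'; simp only [mem_image] at hx hx'
    obtain ⟨p, -, rfl⟩ := hx; obtain ⟨q, -, hq⟩ := hx'; omega)]
  rw [sum_image (fun p _ q _ h => by simpa using h), sum_image (fun p _ q _ h => by simpa using h)]
  push_cast
  simp only [neg_sq]
  have h1 := sum_ker_range ha n
  have h2 := kerPrim_le ha (n : ℝ)
  have h3 : 1 / ((0 : ℝ) ^ 2 + a ^ 2) ^ 2 = 1 / a ^ 4 := by ring_nf
  rw [h3]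
  have : Real.pi / (2 * a ^ 3) = Real.pi / (4 * a ^ 3) + Real.pi / (4 * a ^ 3) := by ring
  linarith

lemma sq_log_sub_le {A B : ℝ} (hA : 0 < A) (hB : 0 < B) :
    (Real.log A - Real.log B) ^ 2 ≤ (A - B) ^ 2 / (A * B) := by
  set d := Real.log A - Real.log B with hd
  have h1 : Real.exp d = A / B := by rw [hd, Real.exp_sub, Real.exp_log hA, Real.exp_log hB]
  have h2 : (A - B) ^ 2 / (A * B) = 2 * Real.cosh d - 2 := by
    rw [Real.cosh_eq, Real.exp_neg, h1]
    field_simp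
    ring
  rw [h2, show d = 2 * (d / 2) by ring, Real.cosh_two_mul, Real.cosh_sq]
  have h3 : |d / 2| ≤ |Real.sinh (d / 2)| := by
    rcases le_total 0 (d / 2) with h | h
    · rw [abs_of_nonneg h, abs_of_nonneg (Real.sinh_nonneg_iff.mpr h)]
      exact Real.self_le_sinh_iff.mpr h
    · rw [abs_of_nonpos h, abs_of_nonpos (Real.sinh_nonpos_iff.mpr h), ← Real.sinh_neg]
      exact Real.self_le_sinh_iff.mpr (by linarith)
  have := sq_le_sq.mpr h3
  nlinarith

lemma sum_half_int (N : ℕ) :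
    ∑ j ∈ range (N + 1), 1 / ((j : ℝ) + 1 / 2) ≤ 3 + Real.log (N : ℝ) ∧
      ∑ j ∈ range (N + 1), 1 / ((j : ℝ) + 1 / 2) ^ 2 ≤ 5 := by
  constructor
  · rw [sum_range_succ']
    have h1 : ∑ j ∈ range N, 1 / (((j + 1 : ℕ) : ℝ) + 1 / 2) ≤ 1 + Real.log N := by
      refine le_trans ?_ (harmonic_le_one_add_log N)
      simp only [harmonic, Rat.cast_sum, Rat.cast_inv, Rat.cast_natCast, one_div]
      exact sum_le_sum fun j _ => inv_anti₀ (by positivity) (by linarith)
    norm_num at h1 ⊢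
    linarith
  · have key : ∀ n : ℕ, ∑ j ∈ range (n + 1), 1 / ((j : ℝ) + 1 / 2) ^ 2 ≤ 5 - 1 / ((n : ℝ) + 1) := by
      intro n
      induction n with
      | zero => norm_num
      | succ n ih =>
        rw [sum_range_succ]
        push_cast
        have hstep : 1 / ((n : ℝ) + 1 + 1 / 2) ^ 2 ≤ 1 / ((n : ℝ) + 1) - 1 / ((n : ℝ) + 1 + 1) := by
          rw [div_sub_div _ _ (by positivity) (by positivity),
            div_le_div_iff₀ (by positivity) (by positivity)]
          nlinarith [(Nat.cast_nonneg n : (0 : ℝ) ≤ n)]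
        linarith
    have := key N
    have : 0 < 1 / ((N : ℝ) + 1) := by positivity
    linarith [key N]

/-- The squared Euclidean length, shifted by `K`. -/
noncomputable def radK (K : ℝ) (z : ℤ × ℤ) : ℝ := (z.1 : ℝ) ^ 2 + (z.2 : ℝ) ^ 2 + K

/-- The truncated logarithmic profile. -/
noncomputable def prof (K : ℝ) (N : ℕ) (z : ℤ × ℤ) : ℝ :=
  max 0 (Real.log N - Real.log (radK K z) / 2)

lemma radK_pos {K : ℝ} (hK : 0 < K) (z : ℤ × ℤ) : 0 < radK K z := by unfold radK; positivity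

lemma prof_zero {K : ℝ} (hK : 1 ≤ K) {N : ℕ} {z : ℤ × ℤ} (h : N ≤ nrm z) : prof K N z = 0 := by
  refine max_eq_left ?_
  rcases Nat.eq_zero_or_pos N with rfl | hN
  · have h1 : 0 ≤ Real.log (radK K z) :=
      Real.log_nonneg (by unfold radK; nlinarith [sq_nonneg (z.1 : ℝ), sq_nonneg (z.2 : ℝ)])
    simp only [Nat.cast_zero, Real.log_zero]
    linarith
  have hN' : (0 : ℝ) < N := Nat.cast_pos.mpr hN
  have hsq : (N : ℝ) ^ 2 ≤ radK K z := by
    have : ((N : ℤ)) ^ 2 ≤ z.1 ^ 2 + z.2 ^ 2 := by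
      simp only [nrm, le_max_iff] at h
      rcases h with h | h
      · have := pow_le_pow_left₀ (Nat.cast_nonneg N) (Int.ofNat_le.mpr h) 2
        rw [Int.natCast_natAbs, sq_abs] at this
        nlinarith [sq_nonneg z.2]
      · have := pow_le_pow_left₀ (Nat.cast_nonneg N) (Int.ofNat_le.mpr h) 2
        rw [Int.natCast_natAbs, sq_abs] at this
        nlinarith [sq_nonneg z.1]
    have : (N : ℝ) ^ 2 ≤ (z.1 : ℝ) ^ 2 + (z.2 : ℝ) ^ 2 := by exact_mod_cast this
    unfold radK; linarith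
  have := Real.log_le_log (by positivity) hsq
  rw [Real.log_pow] at this
  push_cast at this
  linarith

lemma prof_swap (K : ℝ) (N : ℕ) (z : ℤ × ℤ) : prof K N z.swap = prof K N z := by
  simp [prof, radK, add_comm ((z.2 : ℝ) ^ 2)]

/-- The squared horizontal increment of the profile. -/
lemma prof_diff_sq {K : ℝ} (hK : 1 < K) (N : ℕ) (z : ℤ × ℤ) :
    (prof K N (z + (1, 0)) - prof K N z) ^ 2 ≤
      (((z.1 : ℝ) + 1 / 2) ^ 2 / (((z.1 : ℝ) + 1 / 2) ^ 2 + (z.2 : ℝ) ^ 2 + K) ^ 2) / (1 - 1 / K) := by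
  have hK0 : 0 < K := by linarith
  set A := radK K z with hA
  set B := radK K (z + (1, 0)) with hB
  have hA0 : 0 < A := radK_pos hK0 z
  have hB0 : 0 < B := radK_pos hK0 _
  set x := (z.1 : ℝ) + 1 / 2 with hx
  set P := x ^ 2 + (z.2 : ℝ) ^ 2 + K with hP
  have hP0 : 0 < P := by positivity
  have hBA : B - A = 2 * x := by
    simp only [hA, hB, hx, radK, Prod.fst_add, Prod.snd_add]; push_cast; ring
  have hAB : P ^ 2 * (1 - 1 / K) ≤ A * B := by
    have e : A * B = (P + 1 / 4) ^ 2 - x ^ 2 := by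
      simp only [hA, hB, hP, hx, radK, Prod.fst_add, Prod.snd_add]; push_cast; ring
    rw [e]
    have h1 : x ^ 2 * K ≤ P ^ 2 := by nlinarith [sq_nonneg x, sq_nonneg (z.2 : ℝ)]
    have h2 : x ^ 2 ≤ P ^ 2 / K := by rw [le_div_iff₀ hK0]; exact h1
    have h3 : P ^ 2 * (1 - 1 / K) = P ^ 2 - P ^ 2 / K := by ring
    nlinarith
  have hc : 0 < 1 - 1 / K := by rw [sub_pos, div_lt_one hK0]; exact hK
  calc (prof K N (z + (1, 0)) - prof K N z) ^ 2
      ≤ ((Real.log A - Real.log B) / 2) ^ 2 := by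
        rw [sq_le_sq]
        simp only [prof, max_comm (0 : ℝ)]
        refine (abs_max_sub_max_le_abs _ _ _).trans (le_of_eq ?_)
        simp only [hA, hB]
        congr 1
        ring
    _ ≤ (A - B) ^ 2 / (A * B) / 4 := by
        have := sq_log_sub_le hA0 hB0
        linarith
    _ = x ^ 2 / (A * B) := by rw [← neg_sub B A, hBA]; ring
    _ ≤ x ^ 2 / (P ^ 2 * (1 - 1 / K)) :=
        div_le_div_of_nonneg_left (sq_nonneg _) (by positivity) hAB
    _ = _ := by rw [div_div]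

lemma prof_diff_small {K : ℝ} (hK : 2 ≤ K) (N : ℕ) (z : ℤ × ℤ) :
    (prof K N (z + (1, 0)) - prof K N z) ^ 2 ≤ 1 / K := by
  refine (prof_diff_sq (by linarith) N z).trans ?_
  have hc : (1 : ℝ) / 2 ≤ 1 - 1 / K := by
    have : (1 : ℝ) / K ≤ 1 / 2 := div_le_div_of_nonneg_left zero_le_one two_pos hK
    linarith
  have h4 : ((z.1 : ℝ) + 1 / 2) ^ 2 / (((z.1 : ℝ) + 1 / 2) ^ 2 + (z.2 : ℝ) ^ 2 + K) ^ 2
      ≤ 1 / (4 * K) := by
    rw [div_le_div_iff₀ (by positivity) (by positivity)]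
    nlinarith [sq_nonneg (((z.1 : ℝ) + 1 / 2) ^ 2 - K), sq_nonneg (z.2 : ℝ),
      sq_nonneg ((z.1 : ℝ) + 1 / 2)]
  rw [div_le_iff₀ (by linarith)]
  refine h4.trans ?_
  rw [div_le_iff₀ (by positivity), show 1 / K * (1 - 1 / K) * (4 * K) = 4 * (1 - 1 / K) by
    field_simp]
  linarith

/-- The horizontal Dirichlet energy of the profile. -/
lemma prof_energy {K : ℝ} (hK : 1 < K) (N : ℕ) (S : Finset (ℤ × ℤ)) :
    ∑ z ∈ S, (prof K N (z + (1, 0)) - prof K N z) ^ 2
      ≤ (Real.pi * Real.log (N : ℝ) + (3 * Real.pi + 10)) / (1 - 1 / K) := by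
  have hK0 : 0 < K := by linarith
  have hc : 0 < 1 - 1 / K := by rw [sub_pos, div_lt_one hK0]; exact hK
  set w : ℤ → ℝ := fun i => Real.pi / 2 / |(i : ℝ) + 1 / 2| + 1 / |(i : ℝ) + 1 / 2| ^ 2 with hw
  set T := Icc (-(N : ℤ) - 1) N with hT
  set S' := S.filter fun z => z.1 ∈ T with hS'
  have h0 : ∀ z ∈ S, z ∉ S' → (prof K N (z + (1, 0)) - prof K N z) ^ 2 = 0 := by
    intro z hz hz'
    have : z.1 ∉ T := fun h => hz' (mem_filter.mpr ⟨hz, h⟩)
    simp only [hT, mem_Icc] at this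
    rw [prof_zero hK.le (by simp only [nrm, Prod.fst_add, Prod.snd_add]; omega),
      prof_zero hK.le (by simp only [nrm]; omega)]
    ring
  rw [← sum_subset (filter_subset _ S) h0]
  refine (sum_le_sum fun z _ => prof_diff_sq hK N z).trans ?_
  rw [← sum_div, div_le_div_iff_of_pos_right hc]
  set U := (S.image Prod.snd) with hU
  refine (sum_le_sum_of_subset_of_nonneg (t := T ×ˢ U) (fun z hz => ?_)
    fun z _ _ => by positivity).trans ?_
  · exact mem_product.mpr ⟨(mem_filter.mp hz).2, mem_image.mpr ⟨z, (mem_filter.mp hz).1, rfl⟩⟩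
  rw [sum_product]
  refine (sum_le_sum (g := w) fun i _ => ?_).trans ?_
  · dsimp only
    set x := (i : ℝ) + 1 / 2 with hx
    have hx0 : 0 < |x| := by
      rw [abs_pos, hx]
      intro h
      have h' : (2 * i + 1 : ℝ) = 0 := by linarith
      have : 2 * i + 1 = 0 := by exact_mod_cast h'
      omega
    set a := Real.sqrt (x ^ 2 + K) with ha
    have ha2 : a ^ 2 = x ^ 2 + K := Real.sq_sqrt (by positivity)
    have ha0 : 0 < a := Real.sqrt_pos.mpr (by positivity)
    have hxa : |x| ≤ a := Real.abs_le_sqrt (by linarith)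
    have e : ∀ k : ℤ, x ^ 2 / (x ^ 2 + (k : ℝ) ^ 2 + K) ^ 2
        = x ^ 2 * (1 / ((k : ℝ) ^ 2 + a ^ 2) ^ 2) := fun k => by rw [ha2]; ring
    simp only [e, ← mul_sum]
    refine (mul_le_mul_of_nonneg_left (sum_ker_int ha0 U) (sq_nonneg x)).trans ?_
    simp only [hw, mul_add, ← sq_abs x]
    refine add_le_add ?_ ?_
    · rw [div_div, mul_div_assoc', div_le_div_iff₀ (by positivity) (by positivity)]
      have : |x| ^ 3 ≤ a ^ 3 := pow_le_pow_left₀ hx0.le hxa 3
      nlinarith [Real.pi_pos]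
    · rw [mul_one_div, div_le_div_iff₀ (by positivity) (by positivity)]
      have : |x| ^ 4 ≤ a ^ 4 := pow_le_pow_left₀ hx0.le hxa 4
      nlinarith
  · have hsplit : T = (range (N + 1)).image (fun j : ℕ => (j : ℤ))
        ∪ (range (N + 1)).image (fun j : ℕ => -1 - (j : ℤ)) := by
      ext i
      simp only [hT, mem_Icc, mem_union, mem_image, mem_range]
      constructor
      · intro h
        rcases le_or_gt 0 i with hi | hi
        · exact Or.inl ⟨i.natAbs, by omega, by omega⟩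
        · exact Or.inr ⟨i.natAbs - 1, by omega, by omega⟩
      · rintro (⟨j, hj, rfl⟩ | ⟨j, hj, rfl⟩) <;> omega
    rw [hsplit, sum_union (by
      rw [disjoint_left]; intro x hx hx'; simp only [mem_image] at hx hx'
      obtain ⟨p, -, rfl⟩ := hx; obtain ⟨q, -, hq⟩ := hx'; omega),
      sum_image (fun p _ q _ h => by simpa using h), sum_image (fun p _ q _ h => by simpa using h)]
    have e1 : ∀ j : ℕ, w (j : ℤ) = Real.pi / 2 * (1 / ((j : ℝ) + 1 / 2))
        + 1 / ((j : ℝ) + 1 / 2) ^ 2 := fun j => by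
      simp only [hw]
      push_cast
      rw [abs_of_pos (by positivity)]
      ring
    have e2 : ∀ j : ℕ, w (-1 - (j : ℤ)) = Real.pi / 2 * (1 / ((j : ℝ) + 1 / 2))
        + 1 / ((j : ℝ) + 1 / 2) ^ 2 := fun j => by
      simp only [hw]
      push_cast
      rw [show (-1 - (j : ℝ)) + 1 / 2 = -((j : ℝ) + 1 / 2) by ring, abs_neg,
        abs_of_pos (by positivity)]
      ring
    simp only [e1, e2, sum_add_distrib, ← mul_sum]
    obtain ⟨h1, h2⟩ := sum_half_int N
    have := mul_le_mul_of_nonneg_left h1 (show 0 ≤ Real.pi / 2 by positivity)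
    linarith

end Vale.Agent.P159
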