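import Vale.Agent.P159.Energy
import Vale.Agent.P159.Profile

namespace Vale.Agent.P159

open MeasureTheory Finset Filter Topology

variable {b : ℝ} {R : ℕ}

lemma Cinf_adj_le (hb : 0 ≤ b) {z : ℤ × ℤ} (h : z.1.natAbs + z.2.natAbs = 1) :
    Cinf b z ≤ Cinf b (1, 0) := by
  obtain ⟨i, j⟩ := z
  simp only at h
  have : (i = 1 ∧ j = 0) ∨ (i = -1 ∧ j = 0) ∨ (i = 0 ∧ j = 1) ∨ (i = 0 ∧ j = -1) := by omega
  rcases this with ⟨rfl, rfl⟩ | ⟨rfl, rfl⟩ | ⟨rfl, rfl⟩ | ⟨rfl, rfl⟩
  · exact le_rfl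
  · exact (Cinf_neg_fst hb _).trans (by simp)
  · exact (Cinf_swap hb _).trans (by simp)
  · exact (Cinf_neg_snd hb _).trans ((Cinf_swap hb _).trans (by simp))

lemma sum_ite_single_le (f : ℤ × ℤ → ℝ) (hf : ∀ z, 0 ≤ f z) (t : ℤ × ℤ) (B : ℝ) (hB : f t = B) :
    ∑ y : ↥(box R), (if y.1 = t then f y.1 else 0) ≤ B := by
  rw [sum_coe_sort (box R) (fun y => if y = t then f y else 0), sum_ite_eq']
  split_ifs <;> linarith [hf t]

/-- The sum over oriented adjacent pairs is controlled by forward increments. -/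
lemma adj_energy_le (a : ℤ × ℤ → ℝ) (R : ℕ) :
    ∑ x : ↥(box R), ∑ y : ↥(box R), adj x y * (a x.1 - a y.1) ^ 2
      ≤ ∑ z ∈ box R, ((a (z + (1, 0)) - a z) ^ 2 + (a (z + (0, 1)) - a z) ^ 2) := by
  set T : ↥(box R) → ↥(box R) → ℝ := fun x y =>
    ((if y.1 = x.1 + (1, 0) then 1 else 0) + (if y.1 = x.1 + (0, 1) then 1 else 0))
      * (a x.1 - a y.1) ^ 2 with hT
  have h1 : ∀ x y : ↥(box R), adj x y * (a x.1 - a y.1) ^ 2 ≤ (T x y + T y x) / 2 := by
    intro x y
    have e : (a y.1 - a x.1) ^ 2 = (a x.1 - a y.1) ^ 2 := by ring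
    simp only [hT, e, ← add_mul, div_eq_mul_inv, mul_right_comm _ ((a x.1 - a y.1) ^ 2)]
    refine mul_le_mul_of_nonneg_right ?_ (sq_nonneg _)
    unfold adj
    have hnn : ∀ p : Prop, ∀ _ : Decidable p, (0 : ℝ) ≤ if p then 1 else 0 := fun p _ => by
      split_ifs <;> norm_num
    by_cases hadj : (x.1.1 - y.1.1).natAbs + (x.1.2 - y.1.2).natAbs = 1
    · rw [if_pos hadj]
      have : y.1 = x.1 + (1, 0) ∨ y.1 = x.1 + (0, 1) ∨ x.1 = y.1 + (1, 0) ∨ x.1 = y.1 + (0, 1) := by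
        simp only [Prod.ext_iff, Prod.fst_add, Prod.snd_add]
        omega
      rcases this with h | h | h | h <;> rw [if_pos h] <;>
        · have := hnn (y.1 = x.1 + (1, 0)) inferInstance
          have := hnn (y.1 = x.1 + (0, 1)) inferInstance
          have := hnn (x.1 = y.1 + (1, 0)) inferInstance
          have := hnn (x.1 = y.1 + (0, 1)) inferInstance
          linarith
    · rw [if_neg hadj]
      have := hnn (y.1 = x.1 + (1, 0)) inferInstance
      have := hnn (y.1 = x.1 + (0, 1)) inferInstance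
      have := hnn (x.1 = y.1 + (1, 0)) inferInstance
      have := hnn (x.1 = y.1 + (0, 1)) inferInstance
      linarith
  refine (sum_le_sum fun x _ => sum_le_sum fun y _ => h1 x y).trans ?_
  simp only [← sum_div, sum_add_distrib]
  rw [sum_comm (f := fun x y => T y x), add_self_div_two, ← sum_add_distrib,
    ← sum_coe_sort (box R)]
  refine sum_le_sum fun x _ => ?_
  simp only [hT, add_mul, sum_add_distrib, ite_mul, one_mul, zero_mul]
  refine add_le_add ?_ ?_
  · exact sum_ite_single_le (fun z => (a x.1 - a z) ^ 2) (fun z => sq_nonneg _) _ _ (by ring)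
  · exact sum_ite_single_le (fun z => (a x.1 - a z) ^ 2) (fun z => sq_nonneg _) _ _ (by ring)

/-- Complex rotation in the box. -/
lemma cbox_rot_le {b' θ : ℝ} (hb : 0 ≤ b) (hbb : b * Real.exp θ ≤ b')
    (a : ℤ × ℤ → ℝ)
    (hsmall : ∀ x y : ℤ × ℤ, (x.1 - y.1).natAbs + (x.2 - y.2).natAbs = 1 →
      (a x - a y) ^ 2 / 2 ≤ θ)
    (u v : ↥(box R)) :
    cbox R b u v ≤ Real.exp (-(a u.1 - a v.1) + b * Cinf b' (1, 0) * Real.exp θ / 2
      * ∑ z ∈ box R, ((a (z + (1, 0)) - a z) ^ 2 + (a (z + (0, 1)) - a z) ^ 2)) := by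
  refine (corr_rot_le (fun x y : ↥(box R) => b * adj x y) (fun x => a x.1) u v).trans ?_
  rw [Real.exp_le_exp]
  refine add_le_add le_rfl ?_
  have hb' : 0 ≤ b' := le_trans (mul_nonneg hb (Real.exp_pos θ).le) hbb
  have he : 0 ≤ Cinf b' (1, 0) := Cinf_nonneg hb' _
  refine le_trans ?_ (mul_le_mul_of_nonneg_left (adj_energy_le a R) (by positivity))
  simp only [mul_sum]
  refine sum_le_sum fun x _ => sum_le_sum fun y _ => ?_
  by_cases hadj : (x.1.1 - y.1.1).natAbs + (x.1.2 - y.1.2).natAbs = 1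
  swap
  · simp [adj, hadj]
  set d := a x.1 - a y.1 with hd
  have hdθ : d ^ 2 / 2 ≤ θ := hsmall _ _ hadj
  have hc1 : Real.cosh d ≤ Real.exp (d ^ 2 / 2) := Real.cosh_le_exp_half_sq d
  have hc : Real.cosh d - 1 ≤ d ^ 2 / 2 * Real.exp θ := by
    have h1 : Real.exp (d ^ 2 / 2) - 1 ≤ d ^ 2 / 2 * Real.exp (d ^ 2 / 2) := by
      have h2 := mul_le_mul_of_nonneg_right (Real.one_sub_le_exp_neg (d ^ 2 / 2))
        (Real.exp_pos (d ^ 2 / 2)).le
      rw [← Real.exp_add, neg_add_cancel, Real.exp_zero] at h2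
      linarith
    have h3 := mul_le_mul_of_nonneg_left (Real.exp_le_exp.mpr hdθ) (show 0 ≤ d ^ 2 / 2 by positivity)
    linarith
  have hcorr : corr (fun p q : ↥(box R) => b * adj p q * Real.cosh (a p.1 - a q.1)) x y
      ≤ Cinf b' (1, 0) := by
    refine (corr_mono (J' := fun p q => b' * adj p q) (fun p q => ?_) (fun p q => ?_) x y).trans ?_
    · exact mul_nonneg (mul_nonneg hb (adj_nonneg p q)) (Real.cosh_pos _).le
    · by_cases hpq : (p.1.1 - q.1.1).natAbs + (p.1.2 - q.1.2).natAbs = 1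
      · rw [mul_right_comm]
        refine mul_le_mul_of_nonneg_right (le_trans ?_ hbb) (adj_nonneg p q)
        refine mul_le_mul_of_nonneg_left ?_ hb
        exact (Real.cosh_le_exp_half_sq _).trans (Real.exp_le_exp.mpr (hsmall _ _ hpq))
      · simp [adj, hpq]
    · have h := xyCorr_le_Cinf hb' R x.1 y.1
      rw [xyCorr_eq b' x.2 y.2] at h
      refine h.trans (Cinf_adj_le hb' ?_)
      simp only [Prod.fst_sub, Prod.snd_sub]
      omega
  have h1 : 0 ≤ Real.cosh d - 1 := sub_nonneg.mpr (Real.one_le_cosh d)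
  have h2 : 0 ≤ b * adj x y := mul_nonneg hb (adj_nonneg x y)
  calc b * adj x y * (Real.cosh d - 1) * _
      ≤ b * adj x y * (Real.cosh d - 1) * Cinf b' (1, 0) :=
        mul_le_mul_of_nonneg_left hcorr (mul_nonneg h2 h1)
    _ ≤ b * adj x y * (d ^ 2 / 2 * Real.exp θ) * Cinf b' (1, 0) :=
        mul_le_mul_of_nonneg_right (mul_le_mul_of_nonneg_left hc h2) he
    _ = _ := by ring

/-- The rotation profile with centres `0` and `w`. -/
noncomputable def twoProf (K : ℝ) (N : ℕ) (lam : ℝ) (p w z : ℤ × ℤ) : ℝ :=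
  lam * (prof K N (z - p) - prof K N (z - p - w))

lemma sub_sq_disjoint {P Q : ℝ} (h : P = 0 ∨ Q = 0) : (P - Q) ^ 2 = P ^ 2 + Q ^ 2 := by
  rcases h with rfl | rfl <;> ring

lemma prof_disjoint {K : ℝ} (hK : 1 ≤ K) {N : ℕ} {w : ℤ × ℤ} (hw : 2 * N + 1 < nrm w)
    {d : ℤ × ℤ} (hd : nrm d ≤ 1) (z : ℤ × ℤ) :
    prof K N (z + d) - prof K N z = 0 ∨ prof K N (z - w + d) - prof K N (z - w) = 0 := by
  by_contra h
  push Not at h
  have ex : ∀ z, prof K N (z + d) - prof K N z ≠ 0 → nrm (z + d) < N ∨ nrm z < N := by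
    intro z hz
    by_contra hc
    push Not at hc
    exact hz (by rw [prof_zero hK hc.1, prof_zero hK hc.2, sub_zero])
  obtain ⟨i, hi, hi'⟩ : ∃ i : ℤ × ℤ, nrm i < N ∧ (i = z + d ∨ i = z) := by
    rcases ex z h.1 with h1 | h1
    · exact ⟨_, h1, Or.inl rfl⟩
    · exact ⟨_, h1, Or.inr rfl⟩
  obtain ⟨j, hj, hj'⟩ : ∃ j : ℤ × ℤ, nrm j < N ∧ (j = z - w + d ∨ j = z - w) := by
    rcases ex (z - w) h.2 with h1 | h1
    · exact ⟨_, h1, Or.inl rfl⟩
    · exact ⟨_, h1, Or.inr rfl⟩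
  have hk : nrm (w - (i - j)) ≤ 1 := by
    rcases hi' with rfl | rfl <;> rcases hj' with rfl | rfl
    · rw [show w - (z + d - (z - w + d)) = 0 by abel]; simp [nrm]
    · rw [show w - (z + d - (z - w)) = -d by abel, nrm_neg]; exact hd
    · rw [show w - (i - (i - w + d)) = d by abel]; exact hd
    · rw [show w - (i - (i - w)) = 0 by abel]; simp [nrm]
  have h1 := nrm_add (w - (i - j)) (i - j)
  rw [sub_add_cancel] at h1
  have h2 := nrm_add i (-j)
  rw [← sub_eq_add_neg, nrm_neg] at h2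
  omega

lemma twoProf_step {K : ℝ} (hK : 1 ≤ K) {N : ℕ} {w : ℤ × ℤ} (hw : 2 * N + 1 < nrm w) (lam : ℝ)
    (p : ℤ × ℤ) {d : ℤ × ℤ} (hd : nrm d ≤ 1) (z : ℤ × ℤ) :
    (twoProf K N lam p w (z + d) - twoProf K N lam p w z) ^ 2 = lam ^ 2 *
      ((prof K N (z - p + d) - prof K N (z - p)) ^ 2
        + (prof K N (z - p - w + d) - prof K N (z - p - w)) ^ 2) := by
  rw [← sub_sq_disjoint (prof_disjoint hK hw hd (z - p))]
  simp only [twoProf]
  rw [show z + d - p = z - p + d by abel, show z - p + d - w = z - p - w + d by abel]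
  ring

lemma prof_step_small {K : ℝ} (hK : 2 ≤ K) (N : ℕ) (z : ℤ × ℤ) :
    (prof K N (z + (0, 1)) - prof K N z) ^ 2 ≤ 1 / K := by
  have h := prof_diff_small hK N z.swap
  rwa [prof_swap, show z.swap + ((1 : ℤ), (0 : ℤ)) = (z + (0, 1)).swap from rfl, prof_swap] at h

lemma prof_energy_shift {K : ℝ} (hK : 1 < K) (N : ℕ) (S : Finset (ℤ × ℤ)) (p : ℤ × ℤ) :
    ∑ z ∈ S, ((prof K N (z - p + (1, 0)) - prof K N (z - p)) ^ 2
        + (prof K N (z - p + (0, 1)) - prof K N (z - p)) ^ 2)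
      ≤ 2 * ((Real.pi * Real.log (N : ℝ) + (3 * Real.pi + 10)) / (1 - 1 / K)) := by
  rw [sum_add_distrib, two_mul]
  refine add_le_add ?_ ?_
  · rw [← sum_image (f := fun z => (prof K N (z + (1, 0)) - prof K N z) ^ 2) (g := fun z => z - p)
      (fun x _ y _ h => sub_left_injective h)]
    exact prof_energy hK N _
  · have e : ∀ z : ℤ × ℤ, (prof K N (z - p + (0, 1)) - prof K N (z - p)) ^ 2
        = (prof K N ((z - p).swap + (1, 0)) - prof K N (z - p).swap) ^ 2 := fun z => by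
      rw [show (z - p).swap + ((1 : ℤ), (0 : ℤ)) = (z - p + (0, 1)).swap from rfl, prof_swap, prof_swap]
    simp only [e]
    rw [← sum_image (f := fun z => (prof K N (z + (1, 0)) - prof K N z) ^ 2)
      (g := fun z => (z - p).swap) (fun x _ y _ h => sub_left_injective (Prod.swap_injective h))]
    exact prof_energy hK N _

/-- Power-law decay with the energy-corrected exponent. -/
lemma cbox_power_bound {b' η : ℝ} (hb : 0 < b) (hbb : b < b') (hη : 0 ≤ η)
    (hlt : η * (2 * Real.pi * b * Cinf b' (1, 0)) < 1) :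
    ∃ K₀ : ℝ, 1 ≤ K₀ ∧ ∀ (R : ℕ) (u v : ↥(box R)),
      cbox R b u v * max 1 (nrm (v.1 - u.1) : ℝ) ^ η ≤ K₀ := by
  set e := Cinf b' (1, 0) with he
  have hb' : 0 < b' := hb.trans hbb
  have he0 : 0 < e := Cinf_e1_pos hb'
  have hbe : 0 < 2 * Real.pi * b * e := by positivity
  set lam := 1 / (2 * Real.pi * b * e) with hlam
  have hlam0 : 0 < lam := one_div_pos.mpr hbe
  have hηlam : η < lam := by rw [hlam, lt_div_iff₀ hbe]; exact hlt
  have hlim : Tendsto (fun K : ℝ => (b * Real.exp (lam ^ 2 / K),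
      lam * (2 - Real.exp (lam ^ 2 / K) / (1 - 1 / K)))) atTop (𝓝 (b, lam)) := by
    have h1 : Tendsto (fun K : ℝ => Real.exp (lam ^ 2 / K)) atTop (𝓝 1) := by
      have := (Real.continuous_exp.tendsto 0).comp
        ((tendsto_id (α := ℝ) (x := atTop)).const_div_atTop (lam ^ 2))
      simpa [Function.comp_def] using this
    have h2 : Tendsto (fun K : ℝ => 1 - 1 / K) atTop (𝓝 1) := by
      simpa using ((tendsto_id (α := ℝ) (x := atTop)).const_div_atTop 1).const_sub 1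
    refine (Tendsto.prodMk_nhds ?_ ?_)
    · simpa using h1.const_mul b
    · have := ((h1.div h2 one_ne_zero).const_sub 2).const_mul lam
      norm_num at this ⊢
      exact this
  obtain ⟨K, hK, hKb, hKη⟩ : ∃ K : ℝ, 2 ≤ K ∧ b * Real.exp (lam ^ 2 / K) ≤ b' ∧
      η ≤ lam * (2 - Real.exp (lam ^ 2 / K) / (1 - 1 / K)) := by
    have h1 := (hlim.fst_nhds).eventually (eventually_le_nhds hbb)
    have h2 := (hlim.snd_nhds).eventually (eventually_ge_nhds hηlam)
    exact ((eventually_ge_atTop (2 : ℝ)).and (h1.and h2)).exists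
  set θ := lam ^ 2 / K with hθdef
  set C₀ := lam * Real.log K + b * e * Real.exp θ / 2 * (lam ^ 2 *
    (4 * ((3 * Real.pi + 10) / (1 - 1 / K)))) with hC₀
  refine ⟨max 1 (max ((4 : ℝ) ^ η) (Real.exp C₀ * (6 : ℝ) ^ η)), le_max_left _ _, fun R u v => ?_⟩
  set w := v.1 - u.1 with hw
  have hc1 : cbox R b u v ≤ 1 := corr_le_one u v
  by_cases hsmallr : nrm w ≤ 3
  · refine le_trans ?_ ((le_max_left _ _).trans (le_max_right _ _))
    refine (mul_le_mul hc1 (Real.rpow_le_rpow (by positivity) (max_le (by norm_num) ?_) hη)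
      (by positivity) zero_le_one).trans (le_of_eq (one_mul _))
    exact_mod_cast (by omega : nrm w ≤ 4)
  set N := (nrm w - 2) / 2 with hN
  have hN1 : 1 ≤ N := by omega
  have hNw : 2 * N + 1 < nrm w := by omega
  have hwN : nrm w ≤ 6 * N := by omega
  have hK1 : 1 ≤ K := by linarith
  set a := twoProf K N lam u.1 w with ha
  have hsm : ∀ x y : ℤ × ℤ, (x.1 - y.1).natAbs + (x.2 - y.2).natAbs = 1 →
      (a x - a y) ^ 2 / 2 ≤ θ := by
    have key : ∀ (z d : ℤ × ℤ), d = (1, 0) ∨ d = (0, 1) → (a (z + d) - a z) ^ 2 / 2 ≤ θ := by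
      intro z d hd
      rw [ha, twoProf_step hK1 hNw lam u.1 (by rcases hd with rfl | rfl <;> simp [nrm]) z, hθdef]
      have hb1 : ∀ t, (prof K N (t + d) - prof K N t) ^ 2 ≤ 1 / K := fun t => by
        rcases hd with rfl | rfl
        · exact prof_diff_small hK N t
        · exact prof_step_small hK N t
      have := mul_le_mul_of_nonneg_left (add_le_add (hb1 (z - u.1)) (hb1 (z - u.1 - w)))
        (sq_nonneg lam)
      have e3 : lam ^ 2 * (1 / K + 1 / K) = 2 * (lam ^ 2 / K) := by ring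
      linarith
    intro x y hxy
    have h4 : y = x + (1, 0) ∨ y = x + (0, 1) ∨ x = y + (1, 0) ∨ x = y + (0, 1) := by
      simp only [Prod.ext_iff, Prod.fst_add, Prod.snd_add]; omega
    rcases h4 with rfl | rfl | rfl | rfl
    · rw [sub_sq_comm]; exact key x _ (Or.inl rfl)
    · rw [sub_sq_comm]; exact key x _ (Or.inr rfl)
    · exact key y _ (Or.inl rfl)
    · exact key y _ (Or.inr rfl)
  have hmain := cbox_rot_le hb.le hKb a hsm u v
  have hgap : lam * (2 * Real.log (N : ℝ) - Real.log K) ≤ a u.1 - a v.1 := by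
    have hz1 : prof K N (-w) = 0 := prof_zero hK1 (by rw [nrm_neg]; omega)
    have hz2 : prof K N w = 0 := prof_zero hK1 (by omega)
    have h0 : Real.log (N : ℝ) - Real.log K / 2 ≤ prof K N 0 := by
      simp [prof, radK]
    simp only [ha, twoProf, hw, sub_self, zero_sub] at hz1 hz2 ⊢
    rw [hz1, hz2]
    have := mul_le_mul_of_nonneg_left h0 hlam0.le
    linarith
  have hen : ∑ z ∈ box R, ((a (z + (1, 0)) - a z) ^ 2 + (a (z + (0, 1)) - a z) ^ 2)
      ≤ lam ^ 2 * (4 * ((Real.pi * Real.log (N : ℝ) + (3 * Real.pi + 10)) / (1 - 1 / K))) := by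
    simp only [ha, twoProf_step hK1 hNw lam u.1 (d := (1, 0)) (by simp [nrm]),
      twoProf_step hK1 hNw lam u.1 (d := (0, 1)) (by simp [nrm]), ← mul_sum, ← mul_add]
    refine mul_le_mul_of_nonneg_left ?_ (sq_nonneg lam)
    have h1 := prof_energy_shift (show 1 < K by linarith) N (box R) u.1
    have h2 := prof_energy_shift (show 1 < K by linarith) N (box R) (u.1 + w)
    simp only [show ∀ z : ℤ × ℤ, z - (u.1 + w) = z - u.1 - w from fun z => by abel] at h2
    simp only [sum_add_distrib] at h1 h2 ⊢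
    linarith
  have hL : 0 ≤ Real.log (N : ℝ) := Real.log_nonneg (by exact_mod_cast hN1)
  have hexp : cbox R b u v ≤ Real.exp C₀ * (N : ℝ) ^ (-η) := by
    refine hmain.trans ?_
    rw [Real.rpow_def_of_pos (by exact_mod_cast hN1), ← Real.exp_add, Real.exp_le_exp]
    have h3 := mul_le_mul_of_nonneg_left hen
      (show 0 ≤ b * e * Real.exp θ / 2 by positivity)
    have hid : lam * (2 * Real.pi * b * e) = 1 := div_mul_cancel₀ 1 hbe.ne'
    have hident : b * e * Real.exp θ / 2 * (lam ^ 2 *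
        (4 * ((Real.pi * Real.log (N : ℝ) + (3 * Real.pi + 10)) / (1 - 1 / K))))
        = lam * (Real.exp θ / (1 - 1 / K)) * Real.log (N : ℝ) * (lam * (2 * Real.pi * b * e))
          + b * e * Real.exp θ / 2 * (lam ^ 2 * (4 * ((3 * Real.pi + 10) / (1 - 1 / K)))) := by ring
    rw [hident, hid, mul_one] at h3
    have h5 := mul_le_mul_of_nonneg_right hKη hL
    rw [hC₀]
    linarith
  refine le_trans ?_ ((le_max_right _ _).trans (le_max_right _ _))
  refine (mul_le_mul hexp (Real.rpow_le_rpow (by positivity)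
    (max_le (by exact_mod_cast (by omega : 1 ≤ 6 * N))
      (by exact_mod_cast hwN : (nrm w : ℝ) ≤ 6 * (N : ℝ))) hη) (by positivity) (by positivity)).trans
    (le_of_eq ?_)
  rw [Real.mul_rpow (by norm_num) (Nat.cast_nonneg N), Real.rpow_neg (Nat.cast_nonneg N)]
  have : (N : ℝ) ^ η ≠ 0 := (Real.rpow_pos_of_pos (by exact_mod_cast hN1) η).ne'
  field_simp

end Vale.Agent.P159
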