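import Mathlib

namespace Vale.Agent.P159

open MeasureTheory

/-- The square box of radius `R` in the lattice. -/
noncomputable def box (R : ℕ) : Finset (ℤ × ℤ) := Finset.Icc (-(R : ℤ), -(R : ℤ)) ((R : ℤ), (R : ℤ))

/-- Cosine of an angle measured in turns. -/
noncomputable def cosTurn (x : UnitAddCircle) : ℝ := (AddCircle.toCircle x : ℂ).re

/-- The sum of cosines over the nearest-neighbour edges of the box, each counted once
(half the sum over ordered neighbour pairs). -/
noncomputable def xyEnergy (R : ℕ) (θ : ↥(box R) → UnitAddCircle) : ℝ :=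
  ∑ x : ↥(box R), ∑ y : ↥(box R),
    (if (x.1.1 - y.1.1).natAbs + (x.1.2 - y.1.2).natAbs = 1 then (1 / 2 : ℝ) else 0)
      * cosTurn (θ x - θ y)

/-- The finite-volume two-point function of the XY model with free boundary. -/
noncomputable def xyCorr (R : ℕ) (b : ℝ) (u v : ℤ × ℤ) : ℝ :=
  if h : u ∈ box R ∧ v ∈ box R then
    (∫ θ : ↥(box R) → UnitAddCircle, cosTurn (θ ⟨u, h.1⟩ - θ ⟨v, h.2⟩)
        * Real.exp (b * xyEnergy R θ))
      / ∫ θ : ↥(box R) → UnitAddCircle, Real.exp (b * xyEnergy R θ)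
  else 0

end Vale.Agent.P159
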