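import Vale.Agent.P159.Rotation
import Vale.Agent.P159.Bounds

namespace Vale.Agent.P159

open MeasureTheory Finset Filter Topology

variable {V : Type} [Fintype V]

/-- The tangent bound for the logarithm of the partition function. -/
lemma part_le_exp (J J' : V → V → ℝ) :
    part J' ≤ Real.exp (∑ x, ∑ y, (J' x y - J x y) * corr J' x y) * part J := by
  set c := ∑ x, ∑ y, (J' x y - J x y) * corr J' x y with hc
  set S : (V → Turn) → ℝ := fun θ => ∑ x, ∑ y, (J' x y - J x y) * obs x y θ with hS
  have hSc : Continuous S := continuous_finsetSum _ fun x _ => continuous_finsetSum _ fun y _ =>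
    continuous_const.mul (continuous_obs x y)
  have hnum : num J' S = c * part J' := by
    simp only [hS, hc, sum_mul]
    rw [num_sum univ (f := fun x θ => ∑ y, (J' x y - J x y) * obs x y θ)
      fun x _ => continuous_finsetSum _ fun y _ => continuous_const.mul (continuous_obs x y)]
    refine sum_congr rfl fun x _ => ?_
    rw [num_sum univ (f := fun y θ => (J' x y - J x y) * obs x y θ)
      fun y _ => continuous_const.mul (continuous_obs x y)]
    refine sum_congr rfl fun y _ => ?_
    rw [num_const_mul, corr, mul_assoc, div_mul_cancel₀ _ (part_pos J').ne']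
  have hpt : ∀ θ, Real.exp (-c) * (((1 + c) * 1 + -1 * S θ) * Real.exp (ham J' θ))
      ≤ Real.exp (ham J θ) := by
    intro θ
    have e : ham J θ = ham J' θ + -S θ := by
      simp only [ham, hS, obs, ← sum_neg_distrib, ← sum_add_distrib]
      exact sum_congr rfl fun x _ => sum_congr rfl fun y _ => by ring
    rw [e, Real.exp_add]
    have h1 : Real.exp (-c) * (1 + (c - S θ)) ≤ Real.exp (-S θ) := by
      refine (mul_le_mul_of_nonneg_left
        (show 1 + (c - S θ) ≤ Real.exp (c - S θ) by linarith [Real.add_one_le_exp (c - S θ)])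
        (Real.exp_pos _).le).trans (le_of_eq ?_)
      rw [← Real.exp_add]; ring_nf
    have := mul_le_mul_of_nonneg_left h1 (Real.exp_pos (ham J' θ)).le
    linarith
  have hlin : Continuous fun θ => (1 + c) * 1 + -1 * S θ :=
    continuous_const.add (continuous_const.mul hSc)
  have hint := integral_mono ((num_integrable J' hlin).const_mul (Real.exp (-c)))
    (continuous_integrable (continuous_wgt J)) hpt
  rw [integral_const_mul] at hint
  have e2 : ∫ θ, ((1 + c) * 1 + -1 * S θ) * Real.exp (ham J' θ) = part J' := by
    have := num_add J' (f := fun _ => (1 + c) * 1) (g := fun θ => -1 * S θ) continuous_const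
      (continuous_const.mul hSc)
    rw [num_const_mul J' (-1) S, hnum] at this
    change num J' _ = _
    rw [this]
    simp only [num, part, mul_one, integral_const_mul]
    ring
  rw [e2] at hint
  have := mul_le_mul_of_nonneg_left hint (Real.exp_pos c).le
  rwa [← mul_assoc, ← Real.exp_add, add_neg_cancel, Real.exp_zero, one_mul] at this

/-- The rotation bound in terms of energies. -/
lemma corr_rot_le (J : V → V → ℝ) (a : V → ℝ) (u v : V) :
    corr J u v ≤ Real.exp (-(a u - a v) + ∑ x, ∑ y,
      J x y * (Real.cosh (a x - a y) - 1) * corr (fun x y => J x y * Real.cosh (a x - a y)) x y) := by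
  rw [corr, div_le_iff₀ (part_pos J), Real.exp_add, mul_assoc]
  refine (num_le_rot J a u v).trans (mul_le_mul_of_nonneg_left ?_ (Real.exp_pos _).le)
  refine (part_le_exp J _).trans (le_of_eq ?_)
  congr 2
  exact sum_congr rfl fun x _ => sum_congr rfl fun y _ => by ring

/-- Neighbour correlations are bounded away from one. -/
lemma corr_le_isolate (J : V → V → ℝ) (hJ : ∀ x y, 0 ≤ J x y) {u v : V} (huv : u ≠ v) {s : ℝ}
    (hs : ∑ y, J u y + ∑ x, J x u ≤ s) : corr J u v ≤ 1 - Real.exp (-(2 * s)) := by
  classical
  set J₀ : V → V → ℝ := fun x y => if x = u ∨ y = u then 0 else J x y with hJ₀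
  have hham : ∀ θ, |ham J θ - ham J₀ θ| ≤ s := by
    intro θ
    have hsum : ∑ x, ∑ y, (if x = u ∨ y = u then J x y else 0) ≤ s := by
      refine le_trans (sum_le_sum fun x _ => sum_le_sum fun y _ =>
        (show (if x = u ∨ y = u then J x y else 0)
          ≤ (if x = u then J x y else 0) + (if y = u then J x y else 0) from ?_)) ?_
      · have := hJ x y
        split_ifs <;> simp_all
      · simp only [sum_add_distrib]
        rw [sum_comm (f := fun x y => if x = u then J x y else 0)]
        simp only [sum_ite_eq', mem_univ, if_true]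
        exact hs
    refine le_trans ?_ hsum
    rw [ham, ham, ← sum_sub_distrib]
    refine (abs_sum_le_sum_abs _ _).trans (sum_le_sum fun x _ => ?_)
    rw [← sum_sub_distrib]
    refine (abs_sum_le_sum_abs _ _).trans (sum_le_sum fun y _ => ?_)
    simp only [hJ₀]
    split_ifs with h
    · rw [zero_mul, sub_zero, abs_mul, abs_of_nonneg (hJ x y)]
      exact mul_le_of_le_one_right (hJ x y) (abs_cs_le _)
    · simp
  have hzero : num J₀ (obs u v) = 0 := by
    have ht := integral_translate (fun i : V => if i = u then half else 0)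
      fun θ => obs u v θ * Real.exp (ham J₀ θ)
    have e : ∀ θ, obs u v (θ + fun i => if i = u then half else 0)
        * Real.exp (ham J₀ (θ + fun i => if i = u then half else 0))
        = -(obs u v θ * Real.exp (ham J₀ θ)) := by
      intro θ
      have e1 : obs u v (θ + fun i => if i = u then half else 0) = -obs u v θ := by
        simp [obs, huv.symm, add_sub_right_comm, cs_add, cs_half, sn_half]
      have e2 : ham J₀ (θ + fun i => if i = u then half else 0) = ham J₀ θ := by
        refine sum_congr rfl fun x _ => sum_congr rfl fun y _ => ?_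
        by_cases hxy : x = u ∨ y = u
        · simp [hJ₀, hxy]
        · push Not at hxy
          simp [hxy.1, hxy.2]
      rw [e1, e2]; ring
    simp only [e, integral_neg] at ht
    unfold num
    linarith
  have hcon : Continuous fun θ : V → Turn => 1 + -1 * obs u v θ :=
    continuous_const.add (continuous_const.mul (continuous_obs u v))
  have hsplit : ∀ K : V → V → ℝ, ∫ θ, (1 + -1 * obs u v θ) * Real.exp (ham K θ)
      = part K - num K (obs u v) := by
    intro K
    have := num_add K (f := fun _ => (1 : ℝ)) (g := fun θ => -1 * obs u v θ) continuous_const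
      (continuous_const.mul (continuous_obs u v))
    rw [num_const_mul K (-1) (obs u v)] at this
    change num K _ = _
    rw [this]
    simp [num, part, sub_eq_add_neg]
  have h1 : Real.exp (-s) * part J₀ ≤ part J - num J (obs u v) := by
    have e0 : part J₀ = ∫ θ, (1 + -1 * obs u v θ) * Real.exp (ham J₀ θ) := by
      rw [hsplit, hzero, sub_zero]
    rw [e0, ← integral_const_mul, ← hsplit J]
    refine integral_mono ((num_integrable J₀ hcon).const_mul _) (num_integrable J hcon) fun θ => ?_
    have hnn : 0 ≤ 1 + -1 * obs u v θ := by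
      have := (abs_le.mp (abs_cs_le (θ u - θ v))).2
      simp only [obs]; linarith
    rw [mul_left_comm]
    refine mul_le_mul_of_nonneg_left ?_ hnn
    rw [← Real.exp_add, Real.exp_le_exp]
    linarith [(abs_le.mp (hham θ)).1]
  have h2 : part J ≤ Real.exp s * part J₀ := by
    rw [part, part, ← integral_const_mul]
    refine integral_mono (continuous_integrable (continuous_wgt J))
      ((continuous_integrable (continuous_wgt J₀)).const_mul _) fun θ => ?_
    rw [← Real.exp_add, Real.exp_le_exp]
    linarith [(abs_le.mp (hham θ)).2]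
  rw [corr, div_le_iff₀ (part_pos J)]
  have h3 : Real.exp (-(2 * s)) * part J ≤ Real.exp (-s) * part J₀ := by
    refine (mul_le_mul_of_nonneg_left h2 (Real.exp_pos _).le).trans (le_of_eq ?_)
    rw [← mul_assoc, ← Real.exp_add]; ring_nf
  linarith

lemma Cinf_e1_le (b : ℝ) (hb : 0 ≤ b) : Cinf b (1, 0) ≤ 1 - Real.exp (-(8 * b)) := by
  refine le_of_tendsto' (tendsto_Cinf hb _) fun R => ?_
  by_cases h : (0 : ℤ × ℤ) ∈ box R ∧ ((1 : ℤ), (0 : ℤ)) ∈ box R
  · rw [xyCorr_eq b h.1 h.2, cbox]
    have := corr_le_isolate (fun x y : ↥(box R) => b * adj x y)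
      (fun x y => mul_nonneg hb (adj_nonneg x y)) (u := ⟨0, h.1⟩) (v := ⟨(1, 0), h.2⟩)
      (by simp [Subtype.ext_iff, Prod.ext_iff]) (s := 4 * b) ?_
    · exact this.trans (le_of_eq (by ring_nf))
    · rw [← mul_sum, ← mul_sum]
      simp only [fun x => adj_symm x (⟨0, h.1⟩ : ↥(box R))]
      have := mul_le_mul_of_nonneg_left
        (show ∑ y, adj (⟨0, h.1⟩ : ↥(box R)) y ≤ 2 by
          exact adj_row _) hb
      linarith
  · rw [xyCorr, dif_neg h]
    have := Real.exp_le_one_iff.mpr (show -(8 * b) ≤ 0 by linarith)
    linarith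

end Vale.Agent.P159
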