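import Vale.Agent.P159.Bounds

namespace Vale.Agent.P159

open MeasureTheory Finset Filter Topology

theorem corr_length_bound :
    ∃ (C : ℝ → ℕ → ℝ) (m : ℝ → ℝ),
      (∀ b : ℝ, 0 < b → ∀ r : ℕ,
        Tendsto (fun R => xyCorr R b (0, 0) ((r : ℤ), 0)) atTop (𝓝 (C b r))) ∧
      (∀ b : ℝ, 0 < b →
        Tendsto (fun r : ℕ => -Real.log (C b r) / r) atTop (𝓝 (m b)) ∧ 0 ≤ m b) ∧
      (∀ b b' : ℝ, 0 < b → b < b' → m b' = 0 → min 1 (m b) ≤ 17 * Real.sqrt (b' - b)) ∧
      ({b : ℝ | 0 < b ∧ m b = 0}.Nonempty →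
        ∀ b : ℝ, 0 < b → b < sInf {b : ℝ | 0 < b ∧ m b = 0} →
          0 < m b ∧
          min 1 (m b) ≤ 17 * Real.sqrt (sInf {b : ℝ | 0 < b ∧ m b = 0} - b) ∧
          (289 * (sInf {b : ℝ | 0 < b ∧ m b = 0} - b) < 1 →
            1 / 2 * Real.log (1 / (sInf {b : ℝ | 0 < b ∧ m b = 0} - b)) - Real.log 17
              ≤ Real.log (1 / m b))) := by
  refine ⟨fun b r => Cinf b ((r : ℤ), 0), mass, fun b hb r => tendsto_Cinf hb.le _,
    fun b hb => ⟨?_, mass_nonneg hb⟩, fun b b' hb hbb hm => mass_sqrt_bound hb hbb hm, ?_⟩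
  · refine (mass_tendsto hb).congr' ?_
    filter_upwards [eventually_ge_atTop 1] with r hr
    rw [nlog, if_neg (by omega)]
  intro hne b hb hlt
  set Z := {b : ℝ | 0 < b ∧ mass b = 0} with hZ
  set bc := sInf Z with hbc
  have hbdd : BddBelow Z := ⟨0, fun x hx => hx.1.le⟩
  have hpos : 0 < mass b := lt_of_le_of_ne (mass_nonneg hb) fun h =>
    absurd (csInf_le hbdd (⟨hb, h.symm⟩ : b ∈ Z)) (not_le.mpr hlt)
  have hbound : min 1 (mass b) ≤ 17 * Real.sqrt (bc - b) := by
    have hev : ∀ ε : ℝ, 0 < ε → min 1 (mass b) ≤ 17 * Real.sqrt (bc - b + ε) := by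
      intro ε hε
      obtain ⟨b', hb', hlt'⟩ := exists_lt_of_csInf_lt hne (lt_add_of_pos_right bc hε)
      refine (mass_sqrt_bound hb (lt_of_lt_of_le hlt (csInf_le hbdd hb')) hb'.2).trans ?_
      exact mul_le_mul_of_nonneg_left (Real.sqrt_le_sqrt (by linarith)) (by norm_num)
    have hlim : Tendsto (fun ε : ℝ => 17 * Real.sqrt (bc - b + ε)) (𝓝[>] 0)
        (𝓝 (17 * Real.sqrt (bc - b))) := by
      have hc : Continuous fun ε : ℝ => 17 * Real.sqrt (bc - b + ε) :=
        continuous_const.mul (Real.continuous_sqrt.comp (continuous_const.add continuous_id))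
      have := (hc.tendsto 0).mono_left (nhdsWithin_le_nhds (s := Set.Ioi 0))
      simpa using this
    exact ge_of_tendsto hlim (eventually_nhdsWithin_of_forall fun ε hε => hev ε hε)
  refine ⟨hpos, hbound, fun hclose => ?_⟩
  have hd : 0 < bc - b := sub_pos.mpr hlt
  have hs : Real.sqrt (bc - b) ^ 2 = bc - b := Real.sq_sqrt hd.le
  have hs0 : 0 < Real.sqrt (bc - b) := Real.sqrt_pos.mpr hd
  have hsmall : 17 * Real.sqrt (bc - b) < 1 := by nlinarith
  have hm : mass b ≤ 17 * Real.sqrt (bc - b) := by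
    rcases le_total 1 (mass b) with h | h
    · rw [min_eq_left h] at hbound; linarith
    · rwa [min_eq_right h] at hbound
  have := Real.log_le_log hpos hm
  rw [Real.log_mul (by norm_num) hs0.ne', Real.log_sqrt hd.le] at this
  rw [one_div (bc - b), one_div (mass b), Real.log_inv, Real.log_inv]
  linarith

end Vale.Agent.P159
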