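import Vale.Agent.P159.Nu
import Vale.Agent.P159.Final

namespace Vale.Agent.P159

open MeasureTheory Finset Filter Topology

/-- The upper bound on the two-point function along the axis. -/
theorem axis_power_bound {b b' η : ℝ} (hb : 0 < b) (hbb : b < b') (hη : 0 ≤ η)
    (hlt : η * (2 * Real.pi * b * Cinf b' (1, 0)) < 1) :
    ∃ K : ℝ, 0 < K ∧ ∀ r : ℕ, 1 ≤ r → Cinf b ((r : ℤ), 0) ≤ K * (r : ℝ) ^ (-η) := by
  obtain ⟨K, hK, h⟩ := Cinf_power_bound hb hbb hη hlt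
  refine ⟨K, by linarith, fun r hr => ?_⟩
  have h' := h ((r : ℤ), 0)
  have hr' : (1 : ℝ) ≤ r := by exact_mod_cast hr
  rw [show nrm ((r : ℤ), 0) = r by simp [nrm], max_eq_right hr'] at h'
  rw [Real.rpow_neg (by linarith), ← div_eq_mul_inv, le_div_iff₀ (by positivity)]
  exact h'

/-- Exponents strictly beyond the spin-wave value are attained. -/
theorem exponent_gain {b : ℝ} (hb : 0 < b) :
    ∃ η : ℝ, 1 / (2 * Real.pi * b) < η ∧ ∃ K : ℝ, 0 < K ∧
      ∀ r : ℕ, 1 ≤ r → Cinf b ((r : ℤ), 0) ≤ K * (r : ℝ) ^ (-η) := by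
  have he : 0 < Cinf (b + 1) (1, 0) := Cinf_e1_pos (by linarith)
  have h1 : Cinf (b + 1) (1, 0) < 1 := lt_of_le_of_lt (Cinf_e1_le (b + 1) (by linarith))
    (by linarith [Real.exp_pos (-(8 * (b + 1)))])
  set e := Cinf (b + 1) (1, 0) with he'
  have hd : 0 < 2 * Real.pi * b := by positivity
  refine ⟨(1 / (2 * Real.pi * b)) * (2 / (1 + e)), ?_, axis_power_bound (b' := b + 1) hb (by linarith) (by positivity) ?_⟩
  · refine lt_mul_of_one_lt_right (by positivity) ?_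
    rw [lt_div_iff₀ (by positivity)]; linarith
  · calc 1 / (2 * Real.pi * b) * (2 / (1 + e)) * (2 * Real.pi * b * e)
        = 2 * e / (1 + e) := by field_simp
      _ < 1 := by rw [div_lt_one (by positivity)]; linarith

theorem exponent_bounds :
    ∃ (C : ℝ → ℕ → ℝ) (m : ℝ → ℝ),
      (∀ b : ℝ, 0 < b → ∀ r : ℕ,
        Tendsto (fun R => xyCorr R b (0, 0) ((r : ℤ), 0)) atTop (𝓝 (C b r))) ∧
      (∀ b : ℝ, 0 < b →
        Tendsto (fun r : ℕ => -Real.log (C b r) / r) atTop (𝓝 (m b)) ∧ 0 ≤ m b) ∧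
      (∀ b : ℝ, 0 < b → C b 1 ≤ 1 - Real.exp (-(8 * b))) ∧
      (∀ b b' η : ℝ, 0 < b → b < b' → 0 ≤ η → η * (2 * Real.pi * b * C b' 1) < 1 →
        ∃ K : ℝ, 0 < K ∧ ∀ r : ℕ, 1 ≤ r → C b r ≤ K * (r : ℝ) ^ (-η)) ∧
      (∀ b : ℝ, 0 < b → ∃ η : ℝ, 1 / (2 * Real.pi * b) < η ∧ ∃ K : ℝ, 0 < K ∧
        ∀ r : ℕ, 1 ≤ r → C b r ≤ K * (r : ℝ) ^ (-η)) ∧
      (∀ b b' : ℝ, 0 < b → b < b' → m b' = 0 → min 1 (m b) ≤ 17 * Real.sqrt (b' - b)) ∧
      (∀ B B' η : ℝ, 0 < B → B < B' → 0 ≤ η → η < 1 →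
        η * (2 * Real.pi * B * C B' 1) < 1 →
        ∃ K : ℝ, 0 < K ∧ ∀ b b' : ℝ, 0 < b → b ≤ B → b < b' → m b' = 0 →
          min 1 (m b) ≤ K * (b' - b) ^ (1 / (2 - η))) ∧
      ({b : ℝ | 0 < b ∧ m b = 0}.Nonempty →
        ∀ bc : ℝ, bc = sInf {b : ℝ | 0 < b ∧ m b = 0} →
          (∀ b : ℝ, 0 < b → b < bc → 0 < m b) ∧
          ∀ η B' : ℝ, 0 < bc → bc < B' → 0 ≤ η → η < 1 →
            η * (2 * Real.pi * bc * C B' 1) < 1 →
            ∃ (δ K : ℝ), 0 < δ ∧ ∀ b : ℝ, 0 < b → bc - δ < b → b < bc →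
              1 / (2 - η) * Real.log (1 / (bc - b)) - K ≤ Real.log (1 / m b)) := by
  refine ⟨fun b r => Cinf b ((r : ℤ), 0), mass, fun b hb r => tendsto_Cinf hb.le _,
    fun b hb => ⟨?_, mass_nonneg hb⟩,
    fun b hb => by simpa using Cinf_e1_le b hb.le,
    fun b b' η hb hbb hη hlt => axis_power_bound hb hbb hη (by simpa using hlt),
    fun b hb => exponent_gain hb,
    fun b b' hb hbb hm => mass_sqrt_bound hb hbb hm,
    fun B B' η hB hBB hη hη1 hlt => mass_nu_bound hη hη1 hB hBB (by simpa using hlt), ?_⟩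
  · refine (mass_tendsto hb).congr' ?_
    filter_upwards [eventually_ge_atTop 1] with r hr
    rw [nlog, if_neg (by omega)]
  intro hne bc hbc
  set Z := {b : ℝ | 0 < b ∧ mass b = 0} with hZ
  have hbdd : BddBelow Z := ⟨0, fun x hx => hx.1.le⟩
  have hpos : ∀ b, 0 < b → b < bc → 0 < mass b := fun b hb hlt =>
    lt_of_le_of_ne (mass_nonneg hb) fun h =>
      absurd (csInf_le hbdd (⟨hb, h.symm⟩ : b ∈ Z)) (not_le.mpr (hbc ▸ hlt))
  refine ⟨hpos, fun η B' hbc0 hBB hη hη1 hlt => ?_⟩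
  obtain ⟨K, hK, hbound⟩ := mass_nu_bound hη hη1 hbc0 hBB (by simpa using hlt)
  set ν := 1 / (2 - η) with hν
  have hν0 : 0 < ν := by rw [hν]; exact one_div_pos.mpr (by linarith)
  have hat : ∀ b, 0 < b → b < bc → min 1 (mass b) ≤ K * (bc - b) ^ ν := by
    intro b hb hlt'
    have hev : ∀ ε : ℝ, 0 < ε → min 1 (mass b) ≤ K * (bc - b + ε) ^ ν := by
      intro ε hε
      obtain ⟨b', hb', hlt''⟩ := exists_lt_of_csInf_lt hne (hbc ▸ lt_add_of_pos_right bc hε)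
      have hge : bc ≤ b' := hbc ▸ csInf_le hbdd hb'
      refine (hbound b b' hb hlt'.le (lt_of_lt_of_le hlt' hge) hb'.2).trans ?_
      exact mul_le_mul_of_nonneg_left
        (Real.rpow_le_rpow (by linarith) (by linarith) hν0.le) hK.le
    have hc : Continuous fun ε : ℝ => K * (bc - b + ε) ^ ν :=
      continuous_const.mul ((continuous_const.add continuous_id).rpow_const fun _ => Or.inr hν0.le)
    have hlim := (hc.tendsto 0).mono_left (nhdsWithin_le_nhds (s := Set.Ioi 0))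
    simp only [add_zero] at hlim
    exact ge_of_tendsto hlim (eventually_nhdsWithin_of_forall fun ε hε => hev ε hε)
  refine ⟨(1 / (2 * K)) ^ (1 / ν), Real.log K, by positivity, fun b hb hclose hlt' => ?_⟩
  have hd : 0 < bc - b := sub_pos.mpr hlt'
  have hp : 0 < (bc - b) ^ ν := Real.rpow_pos_of_pos hd _
  have hsmall : K * (bc - b) ^ ν < 1 := by
    have h1 := Real.rpow_lt_rpow hd.le (show bc - b < (1 / (2 * K)) ^ (1 / ν) by linarith) hν0
    rw [← Real.rpow_mul (by positivity), one_div_mul_cancel hν0.ne', Real.rpow_one] at h1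
    rw [lt_div_iff₀ (by positivity)] at h1
    linarith [mul_pos hK hp]
  have hm : mass b ≤ K * (bc - b) ^ ν := by
    have := hat b hb hlt'
    rcases le_total 1 (mass b) with h | h
    · rw [min_eq_left h] at this; linarith
    · rwa [min_eq_right h] at this
  have hmb := hpos b hb hlt'
  have hl := Real.log_le_log hmb hm
  rw [Real.log_mul hK.ne' hp.ne', Real.log_rpow hd] at hl
  rw [one_div (bc - b), one_div (mass b), Real.log_inv, Real.log_inv]
  linarith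

end Vale.Agent.P159
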