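import Vale.Agent.P159.Model

namespace Vale.Agent.P159

open MeasureTheory Finset Filter Topology

variable {V : Type} [Fintype V] {J : V → V → ℝ}

lemma num_sum {ι : Type} (s : Finset ι) {f : ι → (V → Turn) → ℝ}
    (hf : ∀ i ∈ s, Continuous (f i)) :
    num J (fun θ => ∑ i ∈ s, f i θ) = ∑ i ∈ s, num J (f i) := by
  simp only [num, sum_mul]
  exact integral_finsetSum _ fun i hi => num_integrable J (hf i hi)

/-- A quarter turn. -/
noncomputable def quarter : Turn := ((1 / 4 : ℝ) : Turn)

/-- An eighth of a turn. -/
noncomputable def eighth : Turn := ((1 / 8 : ℝ) : Turn)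

lemma cs_quarter : cs quarter = 0 := by
  simp [cs, quarter, AddCircle.toCircle_apply_mk, Circle.coe_exp, Complex.exp_re]
  rw [Real.cos_eq_zero_iff]
  exact ⟨0, by push_cast; ring⟩

lemma sn_quarter : sn quarter = 1 := by
  simp [sn, quarter, AddCircle.toCircle_apply_mk, Circle.coe_exp, Complex.exp_im]
  rw [show 2 * Real.pi * 4⁻¹ = Real.pi / 2 by ring, Real.sin_pi_div_two]

lemma eighth_vals : cs eighth = Real.sqrt 2 / 2 ∧ sn eighth = Real.sqrt 2 / 2 := by
  constructor
  · simp [cs, eighth, AddCircle.toCircle_apply_mk, Circle.coe_exp, Complex.exp_re]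
    rw [show 2 * Real.pi * 8⁻¹ = Real.pi / 4 by ring, Real.cos_pi_div_four]
  · simp [sn, eighth, AddCircle.toCircle_apply_mk, Circle.coe_exp, Complex.exp_im]
    rw [show 2 * Real.pi * 8⁻¹ = Real.pi / 4 by ring, Real.sin_pi_div_four]

/-- Product of two cosines. -/
noncomputable def oc (a b : V) (θ : V → Turn) : ℝ := cs (θ a) * cs (θ b)

/-- Product of two sines. -/
noncomputable def os (a b : V) (θ : V → Turn) : ℝ := sn (θ a) * sn (θ b)

omit [Fintype V] in
lemma continuous_oc (a b : V) : Continuous (oc a b) :=
  (continuous_cs.comp (continuous_apply a)).mul (continuous_cs.comp (continuous_apply b))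

omit [Fintype V] in
lemma continuous_os (a b : V) : Continuous (os a b) :=
  (continuous_sn.comp (continuous_apply a)).mul (continuous_sn.comp (continuous_apply b))

lemma num_two (a b : V) :
    num J (oc a b) = num J (obs a b) / 2 ∧ num J (os a b) = num J (obs a b) / 2 := by
  have h1 : num J (os a b) = num J (oc a b) := by
    rw [← num_translate J quarter (f := os a b)]
    refine congrArg (num J) (funext fun θ => ?_)
    simp [os, oc, sn_add, cs_quarter, sn_quarter]
  have h2 : num J (obs a b) = num J (oc a b) + num J (os a b) := by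
    rw [← num_add J (continuous_oc a b) (continuous_os a b)]
    exact congrArg (num J) (funext fun θ => cs_sub _ _)
  rw [h1] at h2 ⊢
  constructor <;> linarith

lemma four_identity (a b c d : V) :
    num J (fun θ => oc a b θ * oc c d θ)
      = num J (fun θ => oc a b θ * os c d θ) + num J (fun θ => oc a c θ * os b d θ)
        + num J (fun θ => oc a d θ * os b c θ) := by
  have hflip : ∀ p q r s : V, num J (fun θ => os p q θ * oc r s θ)
      = num J (fun θ => oc p q θ * os r s θ) := by
    intro p q r s
    rw [← num_translate J quarter (f := fun θ => os p q θ * oc r s θ)]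
    refine congrArg (num J) (funext fun θ => ?_)
    simp [os, oc, sn_add, cs_add, cs_quarter, sn_quarter]
  have hssss : num J (fun θ => os a b θ * os c d θ) = num J (fun θ => oc a b θ * oc c d θ) := by
    rw [← num_translate J quarter (f := fun θ => os a b θ * os c d θ)]
    refine congrArg (num J) (funext fun θ => ?_)
    simp [os, oc, sn_add, cs_quarter, sn_quarter]
  obtain ⟨hc, hs⟩ := eighth_vals
  have hp := num_translate J eighth (f := fun θ => oc a b θ * oc c d θ)
  have hm := num_translate J (-eighth) (f := fun θ => oc a b θ * oc c d θ)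
  have k : Real.sqrt 2 ^ 4 = 4 := by
    nlinarith [Real.sq_sqrt (show (0 : ℝ) ≤ 2 by norm_num)]
  have e : num J (fun θ => 4 * (oc a b (fun i => θ i + eighth) * oc c d (fun i => θ i + eighth))
        + 4 * (oc a b (fun i => θ i + -eighth) * oc c d (fun i => θ i + -eighth)))
      = num J (fun θ => 2 * (oc a b θ * oc c d θ) + 2 * (os a b θ * os c d θ)
        + 2 * (oc a b θ * os c d θ) + 2 * (os a b θ * oc c d θ)
        + 2 * (oc a c θ * os b d θ) + 2 * (os a c θ * oc b d θ)
        + 2 * (oc a d θ * os b c θ) + 2 * (os a d θ * oc b c θ)) := by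
    refine congrArg (num J) (funext fun θ => ?_)
    simp only [oc, os, cs_add, cs_neg, sn_neg, hc, hs]
    linear_combination (1 / 4 : ℝ) *
      ((cs (θ a) - sn (θ a)) * (cs (θ b) - sn (θ b)) * ((cs (θ c) - sn (θ c)) * (cs (θ d) - sn (θ d)))
        + (cs (θ a) + sn (θ a)) * (cs (θ b) + sn (θ b)) * ((cs (θ c) + sn (θ c)) * (cs (θ d) + sn (θ d)))) * k
  have ct : ∀ r : Turn, Continuous fun θ : V → Turn =>
      oc a b (fun i => θ i + r) * oc c d (fun i => θ i + r) := fun r =>
    ((continuous_oc a b).fun_mul (continuous_oc c d)).comp
      (continuous_pi fun i => (continuous_apply i).add continuous_const)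
  have f0 : ∀ p q r s : V, Continuous fun θ : V → Turn => 2 * (oc p q θ * oc r s θ) :=
    fun p q r s => continuous_const.mul ((continuous_oc p q).mul (continuous_oc r s))
  have f1 : ∀ p q r s : V, Continuous fun θ : V → Turn => 2 * (os p q θ * os r s θ) :=
    fun p q r s => continuous_const.mul ((continuous_os p q).mul (continuous_os r s))
  have f2 : ∀ p q r s : V, Continuous fun θ : V → Turn => 2 * (oc p q θ * os r s θ) :=
    fun p q r s => continuous_const.mul ((continuous_oc p q).mul (continuous_os r s))
  have f3 : ∀ p q r s : V, Continuous fun θ : V → Turn => 2 * (os p q θ * oc r s θ) :=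
    fun p q r s => continuous_const.mul ((continuous_os p q).mul (continuous_oc r s))
  have g1 := (f0 a b c d).fun_add (f1 a b c d)
  have g2 := g1.fun_add (f2 a b c d)
  have g3 := g2.fun_add (f3 a b c d)
  have g4 := g3.fun_add (f2 a c b d)
  have g5 := g4.fun_add (f3 a c b d)
  have g6 := g5.fun_add (f2 a d b c)
  rw [num_add J (f := fun θ => 4 * (oc a b (fun i => θ i + eighth) * oc c d (fun i => θ i + eighth)))
      (g := fun θ => 4 * (oc a b (fun i => θ i + -eighth) * oc c d (fun i => θ i + -eighth)))
      (continuous_const.mul (ct eighth)) (continuous_const.mul (ct (-eighth))),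
    num_const_mul, num_const_mul, hp, hm,
    num_add J g6 (f3 a d b c), num_add J g5 (f2 a d b c), num_add J g4 (f3 a c b d),
    num_add J g3 (f2 a c b d), num_add J g2 (f3 a b c d), num_add J g1 (f2 a b c d),
    num_add J (f0 a b c d) (f1 a b c d)] at e
  simp only [num_const_mul, hflip, hssss] at e
  have h2 : num J (fun θ => oc b d θ * os a c θ) = num J (fun θ => os b d θ * oc a c θ) :=
    (hflip b d a c).symm
  linarith

lemma four_bound (hJ : ∀ x y, 0 ≤ J x y) (a b c d : V) :
    num J (fun θ => oc a b θ * os c d θ) * part J
      ≤ num J (obs a b) * num J (obs c d) / 4 := by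
  refine (pair_negative hJ a b c d).trans (le_of_eq ?_)
  change num J (oc a b) * num J (os c d) = _
  rw [(num_two a b).1, (num_two c d).2]
  ring

/-- Lebowitz-type inequality for the rotator. -/
lemma lebowitz (hJ : ∀ x y, 0 ≤ J x y) (a b c d : V) :
    num J (fun θ => obs a b θ * obs c d θ) * part J - num J (obs a b) * num J (obs c d)
      ≤ (num J (obs a c) * num J (obs b d) + num J (obs a d) * num J (obs b c)) / 2 := by
  have hexp : num J (fun θ => obs a b θ * obs c d θ)
      = num J (fun θ => oc a b θ * oc c d θ) + num J (fun θ => oc a b θ * os c d θ)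
        + num J (fun θ => os a b θ * oc c d θ) + num J (fun θ => os a b θ * os c d θ) := by
    have q := (continuous_oc a b).fun_mul (continuous_oc c d)
    have r := (continuous_oc a b).fun_mul (continuous_os c d)
    have s := (continuous_os a b).fun_mul (continuous_oc c d)
    have t := (continuous_os a b).fun_mul (continuous_os c d)
    rw [← num_add J q r, ← num_add J (q.fun_add r) s, ← num_add J ((q.fun_add r).fun_add s) t]
    refine congrArg (num J) (funext fun θ => ?_)
    simp only [obs, oc, os, cs_sub]
    ring
  have hflip : num J (fun θ => os a b θ * oc c d θ) = num J (fun θ => oc a b θ * os c d θ) := by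
    rw [← num_translate J quarter (f := fun θ => os a b θ * oc c d θ)]
    refine congrArg (num J) (funext fun θ => ?_)
    simp [os, oc, sn_add, cs_add, cs_quarter, sn_quarter]
  have hssss : num J (fun θ => os a b θ * os c d θ) = num J (fun θ => oc a b θ * oc c d θ) := by
    rw [← num_translate J quarter (f := fun θ => os a b θ * os c d θ)]
    refine congrArg (num J) (funext fun θ => ?_)
    simp [os, oc, sn_add, cs_quarter, sn_quarter]
  rw [hexp, hflip, hssss, four_identity a b c d]
  have h1 := four_bound hJ a b c d
  have h2 := four_bound hJ a c b d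
  have h3 := four_bound hJ a d b c
  nlinarith

lemma num_sine_nonneg (hJ : ∀ x y, 0 ≤ J x y) (u v w : V) :
    0 ≤ num J (fun θ => sn (θ u - θ v) * sn (θ w - θ v)) := by
  classical
  let T : (V → Turn) →+ (V → Turn) :=
    { toFun := fun φ i => if i = v then φ i else φ i + φ v
      map_zero' := by funext i; simp
      map_add' := fun a b => by
        funext i
        by_cases hi : i = v <;> simp [hi]
        abel }
  have hT : Continuous T := continuous_pi fun i => by
    by_cases hi : i = v
    · subst hi; simpa [T] using continuous_apply i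
    · simpa [T, hi] using Continuous.fun_add (continuous_apply i) (continuous_apply v)
  have hS : Function.Surjective T := fun y =>
    ⟨fun i => if i = v then y i else y i - y v, funext fun i => by
      by_cases hi : i = v <;> simp [T, hi]⟩
  have hc : Continuous fun θ : V → Turn =>
      sn (θ u - θ v) * sn (θ w - θ v) * Real.exp (ham J θ) :=
    ((continuous_sn.comp ((continuous_apply u).sub (continuous_apply v))).mul
      (continuous_sn.comp ((continuous_apply w).sub (continuous_apply v)))).mul (continuous_wgt J)
  have hz : ∀ i, Pres (monomials V) fun φ : V → Turn => cs (if i = v then 0 else φ i) := fun i => by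
    by_cases hi : i = v
    · simpa [hi, cs_zero] using pres_const (S := monomials V) zero_le_one
    · simpa [hi] using pres_cs i
  have hz' : ∀ i, Pres (monomials V) fun φ : V → Turn => sn (if i = v then 0 else φ i) := fun i => by
    by_cases hi : i = v
    · simpa [hi, sn_zero] using pres_const (S := monomials V) (le_refl (0 : ℝ))
    · simpa [hi] using pres_sn i
  have hd : ∀ φ a b, T φ a - T φ b
      = (if a = v then 0 else φ a) - (if b = v then 0 else φ b) := by
    intro φ a b
    by_cases ha : a = v <;> by_cases hb : b = v <;> simp [T, ha, hb]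
  unfold num
  rw [← integral_comp_hom T hT hS hc]
  refine Pres.integral_nonneg one_mem_monomials good_one_monomials ?_
  have hham : Pres (monomials V) fun φ => ham J (T φ) := by
    refine (Pres.sum univ monomials_continuous fun a _ => Pres.sum univ monomials_continuous
      fun b _ => (pres_const (hJ a b)).mul
        (((hz a).mul (hz b)).add monomials_continuous ((hz' a).mul (hz' b)))).congr fun φ => ?_
    simp only [ham, hd, cs_sub]
  refine (((hz' u).mul (hz' w)).mul (hham.exp monomials_continuous)).congr fun φ => ?_
  simp only [hd, if_true, sub_zero]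

/-- Supermultiplicativity of two-point functions. -/
lemma corr_mul_le (hJ : ∀ x y, 0 ≤ J x y) (u v w : V) :
    corr J u v * corr J v w ≤ corr J u w := by
  have c1 : Continuous fun θ : V → Turn => sn (θ u - θ v) * sn (θ w - θ v) :=
    (continuous_sn.comp ((continuous_apply u).sub (continuous_apply v))).mul
      (continuous_sn.comp ((continuous_apply w).sub (continuous_apply v)))
  have h1 : num J (obs u w)
      = num J (fun θ => obs u v θ * obs v w θ)
        + num J (fun θ => sn (θ u - θ v) * sn (θ w - θ v)) := by
    rw [← num_add J ((continuous_obs u v).fun_mul (continuous_obs v w)) c1]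
    refine congrArg (num J) (funext fun θ => ?_)
    simp only [obs]
    rw [show θ u - θ w = (θ u - θ v) + (θ v - θ w) by abel, cs_add,
      show θ w - θ v = -(θ v - θ w) by abel, sn_neg]
    ring
  have h2 := ginibre hJ u v v w
  have h3 := num_sine_nonneg hJ u v w
  have hp := part_pos J
  rw [corr, corr, corr, div_mul_div_comm, div_le_div_iff₀ (mul_pos hp hp) hp]
  rw [h1]
  nlinarith [mul_nonneg h3 hp.le]

lemma hasDerivAt_weighted (J K : V → V → ℝ) {f : (V → Turn) → ℝ} (hf : Continuous f) (s : ℝ) :
    HasDerivAt (fun s => num (fun x y => J x y + s * K x y) f)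
      (num (fun x y => J x y + s * K x y) fun θ => f θ * ham K θ) s := by
  have hlin : ∀ t θ, ham (fun x y => J x y + t * K x y) θ = ham J θ + t * ham K θ := by
    intro t θ
    simp only [ham, mul_sum, ← sum_add_distrib]
    exact sum_congr rfl fun x _ => sum_congr rfl fun y _ => by ring
  simp only [num, hlin]
  have hc : ∀ t : ℝ, Continuous fun θ => f θ * Real.exp (ham J θ + t * ham K θ) := fun t =>
    hf.mul (Real.continuous_exp.comp ((continuous_ham J).add (continuous_const.mul (continuous_ham K))))
  have hj : Continuous fun z : ℝ × (V → Turn) =>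
      f z.2 * ham K z.2 * Real.exp (ham J z.2 + z.1 * ham K z.2) :=
    ((hf.comp continuous_snd).mul ((continuous_ham K).comp continuous_snd)).mul
      (Real.continuous_exp.comp (((continuous_ham J).comp continuous_snd).add
        (continuous_fst.mul ((continuous_ham K).comp continuous_snd))))
  obtain ⟨M, hM⟩ := ((isCompact_Icc (a := s - 1) (b := s + 1)).prod
    isCompact_univ).exists_bound_of_continuousOn hj.continuousOn
  exact (hasDerivAt_integral_of_dominated_loc_of_deriv_le (bound := fun _ => M)
    (F' := fun t θ => f θ * ham K θ * Real.exp (ham J θ + t * ham K θ))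
    (Icc_mem_nhds (by linarith : s - 1 < s) (by linarith : s < s + 1))
    (Eventually.of_forall fun t => (hc t).aestronglyMeasurable) (continuous_integrable (hc s))
    (hj.comp (Continuous.prodMk_right s)).aestronglyMeasurable
    (Eventually.of_forall fun θ t ht => hM (t, θ) ⟨ht, Set.mem_univ θ⟩) (integrable_const M)
    (Eventually.of_forall fun θ t _ =>
      ((((hasDerivAt_id t).mul_const (ham K θ)).const_add (ham J θ)).exp.const_mul (f θ)).congr_deriv
        (by simp; ring))).2

/-- The covariance of two pair observables, as a derivative. -/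
noncomputable def covar (J : V → V → ℝ) (a b c d : V) : ℝ :=
  (num J (fun θ => obs a b θ * obs c d θ) * part J - num J (obs a b) * num J (obs c d))
    / part J ^ 2

lemma hasDerivAt_corr (J K : V → V → ℝ) (u v : V) (s : ℝ) :
    HasDerivAt (fun s => corr (fun x y => J x y + s * K x y) u v)
      (∑ x, ∑ y, K x y * covar (fun x y => J x y + s * K x y) u v x y) s := by
  set L := fun x y => J x y + s * K x y with hL
  have h1 := hasDerivAt_weighted J K (continuous_obs u v) s
  have h2 := hasDerivAt_weighted J K (continuous_const (y := (1 : ℝ))) s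
  have hp : ∀ M : V → V → ℝ, num M (fun _ => 1) = part M := fun M => by simp [num, part]
  simp only [hp, one_mul] at h2
  refine (h1.div h2 (part_pos L).ne').congr_deriv ?_
  have e : ∀ f : (V → Turn) → ℝ, Continuous f →
      num L (fun θ => f θ * ham K θ) = ∑ x, ∑ y, K x y * num L (fun θ => f θ * obs x y θ) := by
    intro f hf
    simp only [ham, mul_sum]
    have hcy : ∀ x y, Continuous fun θ : V → Turn => f θ * (K x y * cs (θ x - θ y)) := fun x y =>
      hf.fun_mul (continuous_const.fun_mul (continuous_obs x y))
    rw [num_sum _ fun x _ => continuous_finsetSum _ fun y _ => hcy x y]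
    refine sum_congr rfl fun x _ => ?_
    rw [num_sum _ fun y _ => hcy x y]
    refine sum_congr rfl fun y _ => ?_
    rw [← num_const_mul]
    exact congrArg (num L) (funext fun θ => by simp only [obs]; ring)
  have e1 := e _ (continuous_obs u v)
  have e2 := e _ (continuous_const (y := (1 : ℝ)))
  simp only [one_mul] at e2
  change (num L (fun θ => obs u v θ * ham K θ) * part L - num L (obs u v) * num L (ham K))
    / part L ^ 2 = _
  rw [e1, show num L (ham K) = num L (fun θ => ham K θ) from rfl, e2, sum_mul, mul_sum,
    ← sum_sub_distrib, sum_div]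
  refine sum_congr rfl fun x _ => ?_
  rw [sum_mul, mul_sum, ← sum_sub_distrib, sum_div]
  refine sum_congr rfl fun y _ => ?_
  rw [covar, show num L (fun θ => obs x y θ) = num L (obs x y) from rfl]
  ring

lemma covar_nonneg (hJ : ∀ x y, 0 ≤ J x y) (a b c d : V) : 0 ≤ covar J a b c d :=
  div_nonneg (sub_nonneg.mpr (ginibre hJ a b c d)) (sq_nonneg _)

lemma covar_le (hJ : ∀ x y, 0 ≤ J x y) (a b c d : V) :
    covar J a b c d ≤ (corr J a c * corr J b d + corr J a d * corr J b c) / 2 := by
  have h := lebowitz hJ a b c d
  have hp := part_pos J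
  unfold covar corr
  rw [div_le_iff₀ (pow_pos hp 2)]
  refine h.trans (le_of_eq ?_)
  field_simp

lemma corr_mono {J' : V → V → ℝ} (hJ : ∀ x y, 0 ≤ J x y) (hle : ∀ x y, J x y ≤ J' x y) (u v : V) :
    corr J u v ≤ corr J' u v := by
  set K := fun x y => J' x y - J x y
  have hd := hasDerivAt_corr J K u v
  have hm : MonotoneOn (fun s => corr (fun x y => J x y + s * K x y) u v) (Set.Ici (0 : ℝ)) := by
    refine monotoneOn_of_hasDerivWithinAt_nonneg (convex_Ici 0)
      (fun s _ => (hd s).continuousAt.continuousWithinAt) (fun s _ => (hd s).hasDerivWithinAt) ?_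
    intro s hs
    rw [interior_Ici] at hs
    refine sum_nonneg fun x _ => sum_nonneg fun y _ => mul_nonneg (sub_nonneg.mpr (hle x y))
      (covar_nonneg (fun a b => add_nonneg (hJ a b)
        (mul_nonneg (le_of_lt hs) (sub_nonneg.mpr (hle a b)))) _ _ _ _)
  have h := hm (Set.self_mem_Ici) (Set.mem_Ici.mpr zero_le_one) zero_le_one
  simpa [K] using h

/-- Couplings pushed forward along a map of sites. -/
noncomputable def push {W : Type} [DecidableEq W] (ι : V → W) (J : V → V → ℝ) (a b : W) : ℝ :=
  ∑ x, ∑ y, if ι x = a ∧ ι y = b then J x y else 0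

lemma corr_embed {W : Type} [Fintype W] [DecidableEq W] {ι : V → W} (hι : Function.Injective ι)
    {J' : W → W → ℝ} (hJ : ∀ x y, 0 ≤ J x y) (hJ' : ∀ a b, 0 ≤ J' a b)
    (hle : ∀ x y, J x y ≤ J' (ι x) (ι y)) (u v : V) :
    corr J u v ≤ corr J' (ι u) (ι v) := by
  let T : (W → Turn) →+ (V → Turn) :=
    { toFun := fun θ i => θ (ι i)
      map_zero' := rfl
      map_add' := fun _ _ => rfl }
  have hT : Continuous T := continuous_pi fun i => continuous_apply _
  have hS : Function.Surjective T := fun y =>
    ⟨Function.extend ι y 0, funext fun i => hι.extend_apply y 0 i⟩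
  have hham : ∀ θ, ham (push ι J) θ = ham J (T θ) := by
    intro θ
    unfold ham push
    simp only [sum_mul]
    rw [sum_congr rfl fun a (_ : a ∈ univ) => sum_comm (s := univ) (t := univ)
      (f := fun b x => ∑ y, (if ι x = a ∧ ι y = b then J x y else 0) * cs (θ a - θ b)), sum_comm]
    refine sum_congr rfl fun x _ => ?_
    rw [sum_congr rfl fun a (_ : a ∈ univ) => sum_comm (s := univ) (t := univ)
      (f := fun b y => (if ι x = a ∧ ι y = b then J x y else 0) * cs (θ a - θ b)), sum_comm]
    refine sum_congr rfl fun y _ => ?_
    rw [sum_eq_single (ι x) (fun a _ hne => sum_eq_zero fun b _ => by simp [Ne.symm hne]) (by simp),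
      sum_eq_single (ι y) (fun b _ hne => by simp [Ne.symm hne]) (by simp)]
    simp [T]
  have hpart : part (push ι J) = part J := by
    simp only [part, hham]
    exact integral_comp_hom T hT hS (continuous_wgt J)
  have hnum : num (push ι J) (obs (ι u) (ι v)) = num J (obs u v) := by
    simp only [num, hham]
    exact integral_comp_hom T hT hS ((continuous_obs u v).mul (continuous_wgt J))
  have heq : corr (push ι J) (ι u) (ι v) = corr J u v := by rw [corr, corr, hnum, hpart]
  rw [← heq]
  refine corr_mono (fun a b => sum_nonneg fun x _ => sum_nonneg fun y _ => ?_) (fun a b => ?_) _ _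
  · split_ifs <;> simp [hJ]
  · by_cases h : ∃ x y, ι x = a ∧ ι y = b
    · obtain ⟨x, y, rfl, rfl⟩ := h
      refine le_trans (le_of_eq ?_) (hle x y)
      rw [sum_eq_single x (fun x' _ hne => by simp [hι.ne hne]) (by simp),
        sum_eq_single y (fun y' _ hne => by simp [hι.ne hne]) (by simp)]
      simp
    · push Not at h
      refine le_trans (le_of_eq ?_) (hJ' a b)
      exact sum_eq_zero fun x _ => sum_eq_zero fun y _ => if_neg fun hxy => h x y hxy.1 hxy.2

end Vale.Agent.P159
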