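import Vale.Agent.P159.Ineq
import Vale.Agent.P159.Defs

namespace Vale.Agent.P159

open MeasureTheory Finset Filter Topology

/-- The supremum norm. -/
def nrm (z : ℤ × ℤ) : ℕ := max z.1.natAbs z.2.natAbs

lemma mem_box {R : ℕ} {z : ℤ × ℤ} : z ∈ box R ↔ nrm z ≤ R := by
  simp only [box, mem_Icc, Prod.le_def, nrm, max_le_iff]
  omega

/-- Half the adjacency matrix of the box. -/
noncomputable def adj {R : ℕ} (x y : ↥(box R)) : ℝ :=
  if (x.1.1 - y.1.1).natAbs + (x.1.2 - y.1.2).natAbs = 1 then 1 / 2 else 0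

lemma adj_nonneg {R : ℕ} (x y : ↥(box R)) : 0 ≤ adj x y := by unfold adj; split_ifs <;> norm_num

lemma adj_symm {R : ℕ} (x y : ↥(box R)) : adj x y = adj y x := by
  unfold adj
  rw [← Int.natAbs_neg (x.1.1 - y.1.1), neg_sub, ← Int.natAbs_neg (x.1.2 - y.1.2), neg_sub]

/-- Two-point function of the box in the coupling notation. -/
noncomputable def cbox (R : ℕ) (b : ℝ) (u v : ↥(box R)) : ℝ :=
  corr (fun x y => b * adj x y) u v

lemma xyCorr_eq {R : ℕ} (b : ℝ) {u v : ℤ × ℤ} (hu : u ∈ box R) (hv : v ∈ box R) :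
    xyCorr R b u v = cbox R b ⟨u, hu⟩ ⟨v, hv⟩ := by
  have h : ∀ θ : ↥(box R) → Turn, b * xyEnergy R θ = ham (fun x y => b * adj x y) θ := by
    intro θ
    simp only [xyEnergy, ham, adj, mul_sum, mul_assoc]
    rfl
  rw [xyCorr, dif_pos ⟨hu, hv⟩, cbox, corr]
  simp only [num, part, h]
  rfl

variable {b : ℝ}

lemma cbox_nonneg (hb : 0 ≤ b) {R : ℕ} (u v : ↥(box R)) : 0 ≤ cbox R b u v :=
  corr_nonneg (fun x y => mul_nonneg hb (adj_nonneg x y)) u v

lemma xyCorr_nonneg (hb : 0 ≤ b) (R : ℕ) (u v : ℤ × ℤ) : 0 ≤ xyCorr R b u v := by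
  by_cases h : u ∈ box R ∧ v ∈ box R
  · rw [xyCorr_eq b h.1 h.2]; exact cbox_nonneg hb _ _
  · rw [xyCorr, dif_neg h]

lemma xyCorr_le_one (R : ℕ) (u v : ℤ × ℤ) : xyCorr R b u v ≤ 1 := by
  by_cases h : u ∈ box R ∧ v ∈ box R
  · rw [xyCorr_eq b h.1 h.2]; exact corr_le_one _ _
  · rw [xyCorr, dif_neg h]; exact zero_le_one

lemma xyCorr_map (hb : 0 ≤ b) {R R' : ℕ} (g : ℤ × ℤ → ℤ × ℤ) (hg : Function.Injective g)
    (hbox : ∀ z ∈ box R, g z ∈ box R')
    (hadj : ∀ x y, (x.1 - y.1).natAbs + (x.2 - y.2).natAbs = 1 →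
      ((g x).1 - (g y).1).natAbs + ((g x).2 - (g y).2).natAbs = 1) (u v : ℤ × ℤ) :
    xyCorr R b u v ≤ xyCorr R' b (g u) (g v) := by
  by_cases h : u ∈ box R ∧ v ∈ box R
  · rw [xyCorr_eq b h.1 h.2, xyCorr_eq b (hbox u h.1) (hbox v h.2)]
    refine corr_embed (ι := fun z : ↥(box R) => (⟨g z.1, hbox z.1 z.2⟩ : ↥(box R')))
      (fun p q hpq => Subtype.ext (hg (congrArg Subtype.val hpq)))
      (fun x y => mul_nonneg hb (adj_nonneg x y)) (fun x y => mul_nonneg hb (adj_nonneg x y))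
      (fun x y => mul_le_mul_of_nonneg_left ?_ hb) _ _
    unfold adj
    by_cases h1 : (x.1.1 - y.1.1).natAbs + (x.1.2 - y.1.2).natAbs = 1
    · rw [if_pos h1, if_pos (hadj _ _ h1)]
    · rw [if_neg h1]; split_ifs <;> norm_num
  · rw [xyCorr, dif_neg h]; exact xyCorr_nonneg hb _ _ _

lemma xyCorr_mono_box (hb : 0 ≤ b) {R R' : ℕ} (h : R ≤ R') (u v : ℤ × ℤ) :
    xyCorr R b u v ≤ xyCorr R' b u v :=
  xyCorr_map hb id Function.injective_id (fun z hz => mem_box.mpr ((mem_box.mp hz).trans h))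
    (fun _ _ h => h) u v

/-- Infinite-volume two-point function. -/
noncomputable def Cinf (b : ℝ) (z : ℤ × ℤ) : ℝ := ⨆ R, xyCorr R b 0 z

lemma tendsto_Cinf (hb : 0 ≤ b) (z : ℤ × ℤ) :
    Tendsto (fun R => xyCorr R b 0 z) atTop (𝓝 (Cinf b z)) :=
  tendsto_atTop_ciSup (fun _ _ h => xyCorr_mono_box hb h 0 z)
    ⟨1, by rintro _ ⟨R, rfl⟩; exact xyCorr_le_one R 0 z⟩

lemma le_Cinf (R : ℕ) (z : ℤ × ℤ) : xyCorr R b 0 z ≤ Cinf b z :=
  le_ciSup (f := fun R => xyCorr R b 0 z) ⟨1, by rintro _ ⟨R, rfl⟩; exact xyCorr_le_one R 0 z⟩ R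

lemma Cinf_nonneg (hb : 0 ≤ b) (z : ℤ × ℤ) : 0 ≤ Cinf b z :=
  (xyCorr_nonneg hb 0 0 z).trans (le_Cinf 0 z)

lemma Cinf_le_one (hb : 0 ≤ b) (z : ℤ × ℤ) : Cinf b z ≤ 1 :=
  le_of_tendsto' (tendsto_Cinf hb z) fun R => xyCorr_le_one R 0 z

lemma adj_shift (a x y : ℤ × ℤ) (h : (x.1 - y.1).natAbs + (x.2 - y.2).natAbs = 1) :
    ((x + a).1 - (y + a).1).natAbs + ((x + a).2 - (y + a).2).natAbs = 1 := by
  simpa using h

lemma nrm_add (x y : ℤ × ℤ) : nrm (x + y) ≤ nrm x + nrm y := by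
  simp only [nrm, Prod.fst_add, Prod.snd_add]
  omega

lemma nrm_neg (x : ℤ × ℤ) : nrm (-x) = nrm x := by simp [nrm]

lemma xyCorr_shift (hb : 0 ≤ b) (R : ℕ) (a u v : ℤ × ℤ) :
    xyCorr R b u v ≤ xyCorr (R + nrm a) b (u + a) (v + a) :=
  xyCorr_map hb (fun z => z + a) (add_left_injective a)
    (fun z hz => mem_box.mpr ((nrm_add z a).trans (Nat.add_le_add_right (mem_box.mp hz) _)))
    (adj_shift a) u v

lemma xyCorr_le_Cinf (hb : 0 ≤ b) (R : ℕ) (u v : ℤ × ℤ) :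
    xyCorr R b u v ≤ Cinf b (v - u) := by
  refine (xyCorr_shift hb R (-u) u v).trans ?_
  rw [add_neg_cancel, ← sub_eq_add_neg]
  exact le_Cinf _ _

lemma Cinf_mul (hb : 0 ≤ b) (x y : ℤ × ℤ) : Cinf b x * Cinf b y ≤ Cinf b (x + y) := by
  refine le_of_tendsto' ((tendsto_Cinf hb x).mul (tendsto_Cinf hb y)) fun R => ?_
  by_cases hx : x ∈ box R
  swap
  · rw [xyCorr, dif_neg fun h => hx h.2, zero_mul]; exact Cinf_nonneg hb _
  by_cases hy : y ∈ box R
  swap
  · rw [mul_comm, xyCorr, dif_neg fun h => hy h.2, zero_mul]; exact Cinf_nonneg hb _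
  have h0 : (0 : ℤ × ℤ) ∈ box R := mem_box.mpr (by simp [nrm])
  have e1 := xyCorr_mono_box hb (Nat.le_add_right R (nrm x)) 0 x
  have e2 := xyCorr_shift hb R x 0 y
  rw [zero_add, add_comm y x] at e2
  have m0 : (0 : ℤ × ℤ) ∈ box (R + nrm x) := mem_box.mpr (by simp [nrm])
  have m1 : x ∈ box (R + nrm x) := mem_box.mpr (le_add_left le_rfl)
  have m2 : x + y ∈ box (R + nrm x) := by
    have := nrm_add x y
    have := mem_box.mp hy
    exact mem_box.mpr (by omega)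
  refine (mul_le_mul e1 e2 (xyCorr_nonneg hb _ _ _) (xyCorr_nonneg hb _ _ _)).trans ?_
  refine le_trans ?_ (le_Cinf (R + nrm x) (x + y))
  rw [xyCorr_eq b m0 m1, xyCorr_eq b m1 m2, xyCorr_eq b m0 m2]
  exact corr_mul_le (fun p q => mul_nonneg hb (adj_nonneg p q)) _ _ _

lemma Cinf_map (hb : 0 ≤ b) (g : ℤ × ℤ → ℤ × ℤ) (hg : Function.Injective g) (hg0 : g 0 = 0)
    (hbox : ∀ R, ∀ z ∈ box R, g z ∈ box R)
    (hadj : ∀ x y, (x.1 - y.1).natAbs + (x.2 - y.2).natAbs = 1 →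
      ((g x).1 - (g y).1).natAbs + ((g x).2 - (g y).2).natAbs = 1) (z : ℤ × ℤ) :
    Cinf b z ≤ Cinf b (g z) :=
  le_of_tendsto' (tendsto_Cinf hb z) fun R => by
    have h := xyCorr_map hb g hg (hbox R) hadj 0 z
    rw [hg0] at h
    exact h.trans (le_Cinf R _)

lemma Cinf_neg_fst (hb : 0 ≤ b) (z : ℤ × ℤ) : Cinf b z ≤ Cinf b (-z.1, z.2) :=
  Cinf_map hb (fun z => (-z.1, z.2)) (fun p q h => by simpa [Prod.ext_iff] using h) (by simp)
    (fun R z hz => by simpa [mem_box, nrm] using hz) (fun x y h => by dsimp; omega) z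

lemma Cinf_neg_snd (hb : 0 ≤ b) (z : ℤ × ℤ) : Cinf b z ≤ Cinf b (z.1, -z.2) :=
  Cinf_map hb (fun z => (z.1, -z.2)) (fun p q h => by simpa [Prod.ext_iff] using h) (by simp)
    (fun R z hz => by simpa [mem_box, nrm] using hz) (fun x y h => by dsimp; omega) z

lemma Cinf_swap (hb : 0 ≤ b) (z : ℤ × ℤ) : Cinf b z ≤ Cinf b z.swap :=
  Cinf_map hb Prod.swap Prod.swap_injective rfl
    (fun R z hz => by simpa [mem_box, nrm, max_comm] using hz) (fun x y h => by simp; omega) z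

lemma Cinf_e1_pos (hb : 0 < b) : 0 < Cinf b (1, 0) := by
  set J : Fin 2 → Fin 2 → ℝ := fun i j => if i = j then 0 else b / 2 with hJd
  have hJ : ∀ i j, 0 ≤ J i j := fun i j => by simp only [hJd]; split_ifs <;> linarith
  have hham : ∀ θ : Fin 2 → Turn, ham J θ = b * obs 0 1 θ := by
    intro θ
    simp only [ham, hJd, Fin.sum_univ_two, obs]
    rw [show θ 1 - θ 0 = -(θ 0 - θ 1) by abel, cs_neg]
    simp
    ring
  have hz : ∫ θ : Fin 2 → Turn, obs 0 1 θ = 0 := by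
    have h := integral_translate (fun i : Fin 2 => if i = 0 then half else 0) (obs 0 1)
    have e : ∀ θ : Fin 2 → Turn,
        obs 0 1 (θ + fun i => if i = 0 then half else 0) = -obs 0 1 θ := fun θ => by
      simp [obs, add_sub_right_comm, cs_add, cs_half, sn_half]
    simp only [e, integral_neg] at h
    linarith
  set g : (Fin 2 → Turn) → ℝ := fun θ => obs 0 1 θ * (Real.exp (b * obs 0 1 θ) - 1)
  have hgc : Continuous g := (continuous_obs 0 1).mul
    ((Real.continuous_exp.comp (continuous_const.mul (continuous_obs 0 1))).sub continuous_const)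
  have hg : 0 < ∫ θ, g θ := by
    refine hgc.integral_pos_of_hasCompactSupport_nonneg_nonzero (HasCompactSupport.of_compactSpace g)
      (fun θ => ?_) (x := 0) ?_
    · simp only [g, Pi.zero_apply]
      rcases le_total 0 (obs 0 1 θ) with h | h
      · exact mul_nonneg h (sub_nonneg.mpr (Real.one_le_exp (mul_nonneg hb.le h)))
      · exact mul_nonneg_of_nonpos_of_nonpos h (sub_nonpos.mpr
          (Real.exp_le_one_iff.mpr (mul_nonpos_of_nonneg_of_nonpos hb.le h)))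
    · simp [g, obs, cs_zero, sub_eq_zero, hb.ne']
  have hnum : 0 < num J (obs 0 1) := by
    have e : num J (obs 0 1) = (∫ θ, g θ) + ∫ θ : Fin 2 → Turn, obs 0 1 θ := by
      rw [← integral_add (continuous_integrable hgc) (continuous_integrable (continuous_obs 0 1))]
      simp only [num, hham, g]
      congr 1
      funext θ
      ring
    rw [e, hz, add_zero]
    exact hg
  have h1 : (1, 0) ∈ box 1 := mem_box.mpr (by simp [nrm])
  have h0 : (0 : ℤ × ℤ) ∈ box 1 := mem_box.mpr (by simp [nrm])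
  refine lt_of_lt_of_le (div_pos hnum (part_pos J)) (le_trans ?_ (le_Cinf 1 (1, 0)))
  rw [xyCorr_eq b h0 h1]
  refine corr_embed (ι := ![(⟨0, h0⟩ : ↥(box 1)), ⟨(1, 0), h1⟩]) ?_ hJ
    (fun p q => mul_nonneg hb.le (adj_nonneg p q)) ?_ 0 1
  · intro i j hij
    fin_cases i <;> fin_cases j <;> simp [Subtype.ext_iff, Prod.ext_iff] at hij ⊢
  · intro i j
    fin_cases i <;> fin_cases j <;> simp [hJd, adj] <;> linarith

lemma Cinf_axis_pos (hb : 0 < b) : ∀ n : ℕ, 1 ≤ n → 0 < Cinf b ((n : ℤ), 0) := by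
  intro n hn
  induction n, hn using Nat.le_induction with
  | base => simpa using Cinf_e1_pos hb
  | succ n _ ih =>
    refine lt_of_lt_of_le (mul_pos ih (Cinf_e1_pos hb)) ?_
    refine (Cinf_mul hb.le _ _).trans (le_of_eq ?_)
    simp

/-- Minus the logarithm of the axial two-point function. -/
noncomputable def nlog (b : ℝ) (n : ℕ) : ℝ :=
  if n = 0 then 0 else -Real.log (Cinf b ((n : ℤ), 0))

lemma nlog_nonneg (hb : 0 < b) (n : ℕ) : 0 ≤ nlog b n := by
  unfold nlog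
  split_ifs with h
  · exact le_rfl
  · exact neg_nonneg.mpr (Real.log_nonpos (Cinf_nonneg hb.le _) (Cinf_le_one hb.le _))

lemma nlog_subadd (hb : 0 < b) : Subadditive (nlog b) := by
  intro m n
  rcases Nat.eq_zero_or_pos m with rfl | hm
  · simp [nlog]
  rcases Nat.eq_zero_or_pos n with rfl | hn
  · simp [nlog]
  simp only [nlog, if_neg hm.ne', if_neg hn.ne', if_neg (by omega : m + n ≠ 0)]
  have h1 := Cinf_axis_pos hb m hm
  have h2 := Cinf_axis_pos hb n hn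
  have h3 := Cinf_mul hb.le ((m : ℤ), 0) ((n : ℤ), 0)
  rw [show (((m : ℤ), (0 : ℤ)) + ((n : ℤ), (0 : ℤ))) = (((m + n : ℕ) : ℤ), (0 : ℤ)) by simp] at h3
  have := Real.log_le_log (mul_pos h1 h2) h3
  rw [Real.log_mul h1.ne' h2.ne'] at this
  linarith

/-- The inverse correlation length. -/
noncomputable def mass (b : ℝ) : ℝ :=
  if h : 0 < b then (nlog_subadd h).lim else 0

lemma nlog_bdd (hb : 0 < b) : BddBelow (Set.range fun n => nlog b n / n) :=
  ⟨0, by rintro _ ⟨n, rfl⟩; exact div_nonneg (nlog_nonneg hb n) (Nat.cast_nonneg n)⟩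

lemma mass_tendsto (hb : 0 < b) : Tendsto (fun n => nlog b n / n) atTop (𝓝 (mass b)) := by
  rw [mass, dif_pos hb]; exact (nlog_subadd hb).tendsto_lim (nlog_bdd hb)

lemma mass_nonneg (hb : 0 < b) : 0 ≤ mass b :=
  ge_of_tendsto' (mass_tendsto hb) fun n => div_nonneg (nlog_nonneg hb n) (Nat.cast_nonneg n)

lemma axis_decay (hb : 0 < b) (n : ℕ) :
    Cinf b ((n : ℤ), 0) ≤ Real.exp (-(mass b * n)) := by
  rcases Nat.eq_zero_or_pos n with rfl | hn
  · simpa using Cinf_le_one hb.le (0, 0)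
  have h := (nlog_subadd hb).lim_le_div (nlog_bdd hb) hn.ne'
  rw [← Real.exp_log (Cinf_axis_pos hb n hn), Real.exp_le_exp, mass, dif_pos hb]
  have hn' : (0 : ℝ) < n := Nat.cast_pos.mpr hn
  rw [le_div_iff₀ hn', nlog, if_neg hn.ne'] at h
  linarith

lemma fst_decay (hb : 0 < b) (z : ℤ × ℤ) : Cinf b z ≤ Real.exp (-(mass b * z.1.natAbs)) := by
  have key : ∀ w : ℤ × ℤ, 0 ≤ w.1 → Cinf b w ≤ Real.exp (-(mass b * w.1.natAbs)) := by
    intro w hw
    have h1 : Cinf b w * Cinf b w ≤ Cinf b (((2 * w.1.natAbs : ℕ) : ℤ), 0) := by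
      refine (mul_le_mul_of_nonneg_left (Cinf_neg_snd hb.le w) (Cinf_nonneg hb.le w)).trans ?_
      refine (Cinf_mul hb.le _ _).trans (le_of_eq (congrArg (Cinf b) (Prod.ext ?_ ?_)))
      · simp only [Prod.fst_add, Nat.cast_mul, Nat.cast_ofNat, Int.natCast_natAbs, abs_of_nonneg hw]
        ring
      · simp
    have h2 := h1.trans (axis_decay hb _)
    rw [show Real.exp (-(mass b * ((2 * w.1.natAbs : ℕ) : ℝ)))
      = Real.exp (-(mass b * w.1.natAbs)) ^ 2 by rw [← Real.exp_nat_mul]; push_cast; ring_nf,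
      ← pow_two] at h2
    exact (pow_le_pow_iff_left₀ (Cinf_nonneg hb.le w) (Real.exp_pos _).le two_ne_zero).mp h2
  rcases le_total 0 z.1 with h | h
  · exact key z h
  · have := (Cinf_neg_fst hb.le z).trans (key (-z.1, z.2) (by simpa using h))
    simpa using this

lemma decay (hb : 0 < b) (z : ℤ × ℤ) :
    Cinf b z ≤ Real.exp (-(mass b / 2)) ^ z.1.natAbs * Real.exp (-(mass b / 2)) ^ z.2.natAbs := by
  have h1 := fst_decay hb z
  have h2 : Cinf b z ≤ Real.exp (-(mass b * z.2.natAbs)) :=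
    (Cinf_swap hb.le z).trans (fst_decay hb z.swap)
  have h3 := mul_le_mul h1 h2 (Cinf_nonneg hb.le z) (Real.exp_pos _).le
  refine (pow_le_pow_iff_left₀ (Cinf_nonneg hb.le z) (by positivity) two_ne_zero).mp ?_
  rw [pow_two]
  refine h3.trans (le_of_eq ?_)
  rw [← Real.exp_nat_mul, ← Real.exp_nat_mul, ← Real.exp_add, ← Real.exp_add, ← Real.exp_nat_mul]
  push_cast
  ring_nf

end Vale.Agent.P159
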