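import Vale.Agent.P159.Basic

namespace Vale.Agent.P159

open MeasureTheory Finset Filter Topology

variable {V : Type} [Fintype V]

/-- The interaction with couplings `J` on ordered pairs. -/
noncomputable def ham (J : V → V → ℝ) (θ : V → Turn) : ℝ :=
  ∑ x, ∑ y, J x y * cs (θ x - θ y)

/-- The unnormalised expectation. -/
noncomputable def num (J : V → V → ℝ) (f : (V → Turn) → ℝ) : ℝ :=
  ∫ θ, f θ * Real.exp (ham J θ)

/-- The partition function. -/
noncomputable def part (J : V → V → ℝ) : ℝ := ∫ θ, Real.exp (ham J θ)

/-- The two-point observable. -/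
noncomputable def obs (u v : V) (θ : V → Turn) : ℝ := cs (θ u - θ v)

/-- The two-point function. -/
noncomputable def corr (J : V → V → ℝ) (u v : V) : ℝ := num J (obs u v) / part J

variable (J : V → V → ℝ)

lemma continuous_ham : Continuous (ham J) :=
  continuous_finsetSum _ fun x _ => continuous_finsetSum _ fun y _ =>
    continuous_const.mul (continuous_cs.comp ((continuous_apply x).sub (continuous_apply y)))

omit [Fintype V] in
lemma continuous_obs (u v : V) : Continuous (obs u v) :=
  continuous_cs.comp ((continuous_apply u).sub (continuous_apply v))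

lemma continuous_wgt : Continuous fun θ => Real.exp (ham J θ) :=
  Real.continuous_exp.comp (continuous_ham J)

lemma part_pos : 0 < part J :=
  integral_exp_pos (continuous_integrable (continuous_wgt J))

lemma num_integrable {f : (V → Turn) → ℝ} (hf : Continuous f) :
    Integrable fun θ => f θ * Real.exp (ham J θ) :=
  continuous_integrable (hf.mul (continuous_wgt J))

lemma num_add {f g : (V → Turn) → ℝ} (hf : Continuous f) (hg : Continuous g) :
    num J (fun θ => f θ + g θ) = num J f + num J g := by
  simp only [num, add_mul]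
  exact integral_add (num_integrable J hf) (num_integrable J hg)

lemma num_neg (f : (V → Turn) → ℝ) : num J (fun θ => -f θ) = -num J f := by
  simp only [num, neg_mul, integral_neg]

lemma num_const_mul (r : ℝ) (f : (V → Turn) → ℝ) :
    num J (fun θ => r * f θ) = r * num J f := by
  simp only [num, mul_assoc, integral_const_mul]

lemma num_translate (a : Turn) {f : (V → Turn) → ℝ} :
    num J (fun θ => f fun i => θ i + a) = num J f := by
  have h := integral_translate (fun _ : V => a) fun θ => f θ * Real.exp (ham J θ)
  refine Eq.trans ?_ h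
  unfold num
  congr 1
  funext θ
  have h2 : ham J (θ + fun _ => a) = ham J θ := by
    simp [ham, add_sub_add_right_eq_sub]
  rw [h2]
  rfl

omit [Fintype V] in
lemma exists_half (a : Turn) : ∃ h : Turn, h + h = a := by
  obtain ⟨r, rfl⟩ := QuotientAddGroup.mk_surjective a
  exact ⟨((r / 2 : ℝ) : Turn), by rw [← AddCircle.coe_add, add_halves]⟩

/-- The left component of a pair of configurations. -/
def lft (x : V ⊕ V → Turn) : V → Turn := fun i => x (Sum.inl i)

/-- The right component of a pair of configurations. -/
def rgt (x : V ⊕ V → Turn) : V → Turn := fun i => x (Sum.inr i)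

omit [Fintype V] in
lemma continuous_lft : Continuous (lft (V := V)) := continuous_pi fun i => continuous_apply _

omit [Fintype V] in
lemma continuous_rgt : Continuous (rgt (V := V)) := continuous_pi fun i => continuous_apply _

lemma integral_pair (F G : (V → Turn) → ℝ) :
    ∫ x : V ⊕ V → Turn, F (lft x) * G (rgt x) = (∫ θ, F θ) * ∫ θ, G θ := by
  rw [← integral_prod_mul F G]
  exact (measurePreserving_sumPiEquivProdPi (X := fun _ : V ⊕ V => Turn)
    (fun _ => (volume : Measure Turn))).integral_comp' fun z => F z.1 * G z.2

lemma integral_rotate {F : (V ⊕ V → Turn) → ℝ} (hF : Continuous F) :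
    ∫ x, F (Sum.elim (lft x - rgt x) (lft x + rgt x)) = ∫ x, F x := by
  refine integral_comp_hom
    { toFun := fun x => Sum.elim (lft x - rgt x) (lft x + rgt x)
      map_zero' := by funext i; rcases i with i | i <;> simp [lft, rgt]
      map_add' := fun a b => by
        funext i; rcases i with i | i <;> simp [lft, rgt] <;> abel } ?_ ?_ hF
  · exact continuous_pi fun i => by
      rcases i with i | i
      · exact (continuous_apply (Sum.inl i)).sub (continuous_apply (Sum.inr i))
      · exact (continuous_apply (Sum.inl i)).add (continuous_apply (Sum.inr i))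
  · intro y
    choose h hh using fun i : V => exists_half (y (Sum.inl i) + y (Sum.inr i))
    refine ⟨Sum.elim h fun i => h i - y (Sum.inl i), ?_⟩
    funext i
    rcases i with i | i
    · simp [lft, rgt]
    · simp only [AddMonoidHom.coe_mk, ZeroHom.coe_mk, Sum.elim_inr, lft, rgt, Pi.add_apply,
        Sum.elim_inl]
      rw [← add_sub_assoc, hh, add_sub_cancel_left]

lemma ham_pair (x : V ⊕ V → Turn) :
    ham J (lft x - rgt x) + ham J (lft x + rgt x)
      = ∑ a, ∑ b, J a b * (2 * (cs (lft x a - lft x b) * cs (rgt x a - rgt x b))) := by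
  simp only [ham, ← sum_add_distrib]
  refine sum_congr rfl fun a _ => sum_congr rfl fun b _ => ?_
  simp only [Pi.sub_apply, Pi.add_apply]
  rw [show lft x a - rgt x a - (lft x b - rgt x b)
      = (lft x a - lft x b) - (rgt x a - rgt x b) by abel,
    show lft x a + rgt x a - (lft x b + rgt x b)
      = (lft x a - lft x b) + (rgt x a - rgt x b) by abel,
    cs_sub (lft x a - lft x b), cs_add (lft x a - lft x b)]
  ring

lemma num_pair_eq {f g : (V → Turn) → ℝ} (hf : Continuous f) (hg : Continuous g) :
    num J f * num J g = ∫ x : V ⊕ V → Turn, f (lft x - rgt x) * g (lft x + rgt x)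
      * Real.exp (ham J (lft x - rgt x) + ham J (lft x + rgt x)) := by
  unfold num
  rw [← integral_pair (fun θ => f θ * Real.exp (ham J θ)) fun θ => g θ * Real.exp (ham J θ)]
  have hc : Continuous fun x : V ⊕ V → Turn => (f (lft x) * Real.exp (ham J (lft x))) *
      (g (rgt x) * Real.exp (ham J (rgt x))) :=
    ((hf.mul (continuous_wgt J)).comp continuous_lft).mul
      ((hg.mul (continuous_wgt J)).comp continuous_rgt)
  rw [← integral_rotate hc]
  congr 1
  funext x
  simp only [lft, rgt, Sum.elim_inl, Sum.elim_inr, Real.exp_add]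
  change f (lft x - rgt x) * _ * (g (lft x + rgt x) * _) = _
  simp only [← mul_assoc]
  rw [mul_right_comm (f (lft x - rgt x))]
  rfl

/-- Replica comparison: if `(f-f')(g-g')` times the pair weight integrates nonnegatively,
the correlation is nonnegative. -/
lemma cov_of_pair {f g : (V → Turn) → ℝ} (hf : Continuous f) (hg : Continuous g)
    (h : 0 ≤ ∫ x : V ⊕ V → Turn, (f (lft x - rgt x) - f (lft x + rgt x)) *
      (g (lft x - rgt x) - g (lft x + rgt x)) *
      Real.exp (ham J (lft x - rgt x) + ham J (lft x + rgt x))) :
    num J f * num J g ≤ num J (fun θ => f θ * g θ) * part J := by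
  have hp : part J = num J fun _ => 1 := by simp [part, num]
  have h1 := num_pair_eq J hf hg
  have h2 := num_pair_eq J hg hf
  have h3 := num_pair_eq J (hf.fun_mul hg) (continuous_const (y := (1 : ℝ)))
  have h4 := num_pair_eq J (continuous_const (y := (1 : ℝ))) (hf.fun_mul hg)
  rw [← hp] at h3 h4
  have hm : Continuous fun x : V ⊕ V → Turn => lft x - rgt x := continuous_lft.sub continuous_rgt
  have hq : Continuous fun x : V ⊕ V → Turn => lft x + rgt x := continuous_lft.add continuous_rgt
  have hw : Continuous fun x : V ⊕ V → Turn =>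
      Real.exp (ham J (lft x - rgt x) + ham J (lft x + rgt x)) :=
    Real.continuous_exp.comp (((continuous_ham J).comp hm).add ((continuous_ham J).comp hq))
  have i1 := continuous_integrable (((hf.comp hm).mul (hg.comp hq)).mul hw)
  have i2 := continuous_integrable (((hg.comp hm).mul (hf.comp hq)).mul hw)
  have i3 := continuous_integrable ((((hf.fun_mul hg).comp hm).mul (continuous_const (y := (1 : ℝ)))).mul hw)
  have i4 := continuous_integrable (((continuous_const (y := (1 : ℝ))).mul ((hf.fun_mul hg).comp hq)).mul hw)
  have key : ∫ x : V ⊕ V → Turn, (f (lft x - rgt x) - f (lft x + rgt x)) *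
      (g (lft x - rgt x) - g (lft x + rgt x)) *
      Real.exp (ham J (lft x - rgt x) + ham J (lft x + rgt x))
      = num J (fun θ => f θ * g θ) * part J + part J * num J (fun θ => f θ * g θ)
        - num J f * num J g - num J g * num J f := by
    have e : ∀ x : V ⊕ V → Turn, (f (lft x - rgt x) - f (lft x + rgt x)) *
      (g (lft x - rgt x) - g (lft x + rgt x)) *
      Real.exp (ham J (lft x - rgt x) + ham J (lft x + rgt x)) =
      (f (lft x - rgt x) * g (lft x - rgt x) * 1 *
          Real.exp (ham J (lft x - rgt x) + ham J (lft x + rgt x))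
        + 1 * (f (lft x + rgt x) * g (lft x + rgt x)) *
          Real.exp (ham J (lft x - rgt x) + ham J (lft x + rgt x)))
      - f (lft x - rgt x) * g (lft x + rgt x) *
          Real.exp (ham J (lft x - rgt x) + ham J (lft x + rgt x))
      - g (lft x - rgt x) * f (lft x + rgt x) *
          Real.exp (ham J (lft x - rgt x) + ham J (lft x + rgt x)) := fun x => by ring
    rw [integral_congr_ae (Eventually.of_forall e)]
    rw [integral_sub, integral_sub, integral_add]
    · rw [← h1, ← h2, ← h3, ← h4]
    · exact i3
    · exact i4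
    · exact i3.add i4
    · exact i1
    · exact (i3.add i4).sub i1
    · exact i2
  rw [key] at h
  nlinarith

variable {J}

/-- The squares used as test functions for the first Ginibre inequality. -/
def squares (V : Type) [Fintype V] : Set ((V ⊕ V → Turn) → ℝ) :=
  { g | ∃ G : (V → Turn) → ℝ, Continuous G ∧ g = fun x => G (lft x) * G (rgt x) }

lemma squares_continuous : ∀ g ∈ squares V, Continuous g := by
  rintro g ⟨G, hG, rfl⟩
  exact (hG.comp continuous_lft).mul (hG.comp continuous_rgt)

lemma good_one_squares : Good (squares V) fun _ => 1 := by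
  refine ⟨continuous_const, ?_⟩
  rintro g ⟨G, -, rfl⟩
  simp only [one_mul, integral_pair]
  exact mul_self_nonneg _

lemma pres_square {k : (V → Turn) → ℝ} (hk : Continuous k) :
    Pres (squares V) fun x => k (lft x) * k (rgt x) := by
  refine pres_gen ((hk.comp continuous_lft).mul (hk.comp continuous_rgt)) ?_
  rintro g ⟨G, hG, rfl⟩
  exact ⟨fun θ => k θ * G θ, hk.mul hG, funext fun x => by ring⟩

lemma ginibre (hJ : ∀ x y, 0 ≤ J x y) (u v u' v' : V) :
    num J (obs u v) * num J (obs u' v') ≤ num J (fun θ => obs u v θ * obs u' v' θ) * part J := by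
  refine cov_of_pair J (continuous_obs u v) (continuous_obs u' v') ?_
  have hS := squares_continuous (V := V)
  have hd : ∀ a b, Pres (squares V) fun x : V ⊕ V → Turn =>
      obs a b (lft x - rgt x) - obs a b (lft x + rgt x) := by
    intro a b
    refine ((pres_const (S := squares V) two_pos.le).mul
      (pres_square (k := fun θ => sn (θ a - θ b))
        (continuous_sn.comp ((continuous_apply a).sub (continuous_apply b))))).congr fun x => ?_
    simp only [obs, Pi.sub_apply, Pi.add_apply]
    rw [show lft x a - rgt x a - (lft x b - rgt x b)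
      = (lft x a - lft x b) - (rgt x a - rgt x b) by abel,
      show lft x a + rgt x a - (lft x b + rgt x b)
      = (lft x a - lft x b) + (rgt x a - rgt x b) by abel,
      cs_sub (lft x a - lft x b), cs_add (lft x a - lft x b)]
    ring
  have hw : Pres (squares V) fun x : V ⊕ V → Turn =>
      ham J (lft x - rgt x) + ham J (lft x + rgt x) := by
    refine (Pres.sum univ hS fun a _ => Pres.sum univ hS fun b _ =>
      (pres_const (hJ a b)).mul ((pres_const two_pos.le).mul
        (pres_square (k := fun θ => cs (θ a - θ b))
          (continuous_cs.comp ((continuous_apply a).sub (continuous_apply b)))))).congr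
      fun x => (ham_pair J x).symm
  have h1 : (fun _ => (1 : ℝ)) ∈ squares V := ⟨fun _ => 1, continuous_const, by simp⟩
  exact (((hd u v).mul (hd u' v')).mul (hw.exp hS)).integral_nonneg h1 good_one_squares

lemma pres_cs_diff (a b : V) : Pres (monomials V) fun θ => cs (θ a - θ b) :=
  (((pres_cs a).mul (pres_cs b)).add monomials_continuous ((pres_sn a).mul (pres_sn b))).congr
    fun θ => (cs_sub _ _).symm

lemma num_obs_nonneg (hJ : ∀ x y, 0 ≤ J x y) (u v : V) : 0 ≤ num J (obs u v) := by
  refine ((pres_cs_diff u v).mul (Pres.exp monomials_continuous ?_)).integral_nonneg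
    one_mem_monomials good_one_monomials
  exact Pres.sum univ monomials_continuous fun a _ => Pres.sum univ monomials_continuous
    fun b _ => (pres_const (hJ a b)).mul (pres_cs_diff a b)

lemma corr_nonneg (hJ : ∀ x y, 0 ≤ J x y) (u v : V) : 0 ≤ corr J u v :=
  div_nonneg (num_obs_nonneg hJ u v) (part_pos J).le

lemma corr_le_one (u v : V) : corr J u v ≤ 1 := by
  rw [corr, div_le_one (part_pos J)]
  refine integral_mono (num_integrable J (continuous_obs u v))
    (continuous_integrable (continuous_wgt J)) fun θ => ?_
  exact mul_le_of_le_one_left (Real.exp_pos _).le ((abs_le.mp (abs_cs_le _)).2)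

omit [Fintype V] in
lemma obs_comm (u v : V) : obs u v = obs v u :=
  funext fun θ => by rw [obs, obs, ← cs_neg, neg_sub]

lemma corr_comm (u v : V) : corr J u v = corr J v u := by rw [corr, corr, obs_comm]

lemma pair_negative (hJ : ∀ x y, 0 ≤ J x y) (a b c d : V) :
    num J (fun θ => cs (θ a) * cs (θ b) * (sn (θ c) * sn (θ d))) * part J
      ≤ num J (fun θ => cs (θ a) * cs (θ b)) * num J (fun θ => sn (θ c) * sn (θ d)) := by
  have cc : ∀ i : V, Continuous fun θ : V → Turn => cs (θ i) :=
    fun i => continuous_cs.comp (continuous_apply i)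
  have cn : ∀ i : V, Continuous fun θ : V → Turn => sn (θ i) :=
    fun i => continuous_sn.comp (continuous_apply i)
  have hS := monomials_continuous (A := V ⊕ V)
  have hp : Pres (monomials (V ⊕ V)) fun x : V ⊕ V → Turn =>
      ham J (lft x - rgt x) + ham J (lft x + rgt x) := by
    refine (Pres.sum univ hS fun p _ => Pres.sum univ hS fun q _ =>
      (pres_const (hJ p q)).mul ((pres_const two_pos.le).mul
        ((pres_cs_diff (V := V ⊕ V) (Sum.inl p) (Sum.inl q)).mul
          (pres_cs_diff (Sum.inr p) (Sum.inr q))))).congr fun x => (ham_pair J x).symm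
  have hu : Pres (monomials (V ⊕ V)) fun x : V ⊕ V → Turn =>
      cs ((lft x - rgt x) a) * cs ((lft x - rgt x) b)
        - cs ((lft x + rgt x) a) * cs ((lft x + rgt x) b) := by
    refine ((pres_const two_pos.le).mul
      ((((pres_cs (Sum.inl a)).mul (pres_cs (Sum.inr a))).mul
        ((pres_sn (Sum.inl b)).mul (pres_sn (Sum.inr b)))).add hS
      (((pres_sn (Sum.inl a)).mul (pres_sn (Sum.inr a))).mul
        ((pres_cs (Sum.inl b)).mul (pres_cs (Sum.inr b)))))).congr fun x => ?_
    simp only [Pi.sub_apply, Pi.add_apply, cs_sub, cs_add, lft, rgt]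
    ring
  have hv : Pres (monomials (V ⊕ V)) fun x : V ⊕ V → Turn =>
      -(sn ((lft x - rgt x) c) * sn ((lft x - rgt x) d))
        - -(sn ((lft x + rgt x) c) * sn ((lft x + rgt x) d)) := by
    refine ((pres_const two_pos.le).mul
      ((((pres_sn (Sum.inl c)).mul (pres_cs (Sum.inr c))).mul
        ((pres_cs (Sum.inl d)).mul (pres_sn (Sum.inr d)))).add hS
      (((pres_cs (Sum.inl c)).mul (pres_sn (Sum.inr c))).mul
        ((pres_sn (Sum.inl d)).mul (pres_cs (Sum.inr d)))))).congr fun x => ?_
    simp only [Pi.sub_apply, Pi.add_apply, sn_sub, sn_add, lft, rgt]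
    ring
  have h := cov_of_pair J ((cc a).fun_mul (cc b)) ((cn c).fun_mul (cn d)).neg
    (((hu.mul hv).mul (hp.exp hS)).integral_nonneg one_mem_monomials good_one_monomials)
  have e1 : num J (fun θ => cs (θ a) * cs (θ b) * -(sn (θ c) * sn (θ d)))
      = -num J (fun θ => cs (θ a) * cs (θ b) * (sn (θ c) * sn (θ d))) := by
    simp only [mul_neg, num_neg]
  simp only [Pi.neg_apply] at h
  rw [e1, show (-fun θ : V → Turn => sn (θ c) * sn (θ d)) = fun θ => -(sn (θ c) * sn (θ d)) from rfl,
    num_neg] at h
  linarith

end Vale.Agent.P159
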