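import Vale.Agent.P159.Decay

namespace Vale.Agent.P159

open MeasureTheory Finset Filter Topology

variable {b : ℝ} {R : ℕ}

lemma cbox_le_Cinf_sub (hb : 0 ≤ b) (u v : ↥(box R)) : cbox R b u v ≤ Cinf b (v.1 - u.1) := by
  have := xyCorr_le_Cinf hb R u.1 v.1
  rwa [xyCorr_eq b u.2 v.2] at this

lemma Cinf_power_bound {b' η : ℝ} (hb : 0 < b) (hbb : b < b') (hη : 0 ≤ η)
    (hlt : η * (2 * Real.pi * b * Cinf b' (1, 0)) < 1) :
    ∃ K₀ : ℝ, 1 ≤ K₀ ∧ ∀ z : ℤ × ℤ, Cinf b z * max 1 (nrm z : ℝ) ^ η ≤ K₀ := by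
  obtain ⟨K₀, hK₀, h⟩ := cbox_power_bound hb hbb hη hlt
  refine ⟨K₀, hK₀, fun z => le_of_tendsto' ((tendsto_Cinf hb.le z).mul_const _) fun R => ?_⟩
  by_cases hz : (0 : ℤ × ℤ) ∈ box R ∧ z ∈ box R
  · rw [xyCorr_eq b hz.1 hz.2]
    simpa using h R ⟨0, hz.1⟩ ⟨z, hz.2⟩
  · rw [xyCorr, dif_neg hz, zero_mul]; linarith

lemma sum_pow_neg_le {η : ℝ} (hη : 0 ≤ η) (hη1 : η < 1) (n : ℕ) :
    ∑ k ∈ range n, ((k : ℝ) + 1) ^ (-η) ≤ (n : ℝ) ^ (1 - η) / (1 - η) := by
  induction n with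
  | zero => simp [Real.zero_rpow (by linarith : (1 - η) ≠ 0)]
  | succ n ih =>
    rw [sum_range_succ]
    push_cast
    have hs0 : 0 ≤ 1 - η := by linarith
    set k := (n : ℝ) + 1 with hk
    have hk0 : 0 < k := by positivity
    have hp : 0 < k ^ (1 - η) := Real.rpow_pos_of_pos hk0 _
    have h := rpow_one_add_le_one_add_mul_self (s := -(1 / k))
      (by rw [neg_le_neg_iff, div_le_one hk0]; linarith [(Nat.cast_nonneg n : (0 : ℝ) ≤ n)]) hs0
      (by linarith)
    rw [show 1 + -(1 / k) = (n : ℝ) / k by rw [hk]; field_simp; ring,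
      Real.div_rpow (Nat.cast_nonneg n) hk0.le, div_le_iff₀ hp] at h
    have e : k ^ (-η) = k ^ (1 - η) / k := by
      rw [show -η = (1 - η) - 1 by ring, Real.rpow_sub hk0, Real.rpow_one]
    rw [e]
    have h2 : (n : ℝ) ^ (1 - η) / (1 - η) ≤ (k ^ (1 - η) - (1 - η) * (k ^ (1 - η) / k)) / (1 - η) := by
      refine (div_le_div_iff_of_pos_right (by linarith)).mpr (h.trans (le_of_eq ?_))
      ring
    have hne : (1 - η) ≠ 0 := by linarith
    have h3 : (k ^ (1 - η) - (1 - η) * (k ^ (1 - η) / k)) / (1 - η)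
        = k ^ (1 - η) / (1 - η) - k ^ (1 - η) / k := by field_simp
    linarith

/-- Summing the power-law bound over a square. -/
lemma sum_square_le {η : ℝ} (hη : 0 ≤ η) (hη1 : η < 1) {n : ℕ} (hn : 1 ≤ n) :
    ∑ z ∈ Icc (-(n : ℤ)) n ×ˢ Icc (-(n : ℤ)) n, max 1 (nrm z : ℝ) ^ (-η)
      ≤ 12 / (1 - η) * (n : ℝ) ^ (2 - η) := by
  have hn0 : (1 : ℝ) ≤ n := by exact_mod_cast hn
  have h1 : ∀ z : ℤ × ℤ, max 1 (nrm z : ℝ) ^ (-η) ≤ max 1 (z.1.natAbs : ℝ) ^ (-η) := fun z =>
    Real.rpow_le_rpow_of_nonpos (by positivity)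
      (max_le_max le_rfl (by exact_mod_cast (le_max_left _ _ : z.1.natAbs ≤ nrm z))) (by linarith)
  refine (sum_le_sum fun z _ => h1 z).trans ?_
  rw [sum_product]
  simp only [sum_const, nsmul_eq_mul, ← mul_sum]
  have hcard : ((Icc (-(n : ℤ)) n).card : ℝ) = 2 * n + 1 := by
    rw [Int.card_Icc, show ((n : ℤ) + 1 - -(n : ℤ)).toNat = 2 * n + 1 by omega]
    push_cast; ring
  have hsplit : ∑ i ∈ Icc (-(n : ℤ)) n, max 1 (i.natAbs : ℝ) ^ (-η)
      ≤ 1 + 2 * ∑ k ∈ range n, ((k : ℝ) + 1) ^ (-η) := by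
    have hset : Icc (-(n : ℤ)) n = insert 0 ((range n).image (fun k : ℕ => (k : ℤ) + 1)
        ∪ (range n).image (fun k : ℕ => -((k : ℤ) + 1))) := by
      ext i
      simp only [mem_Icc, mem_insert, mem_union, mem_image, mem_range]
      constructor
      · intro h
        rcases lt_trichotomy i 0 with h' | h' | h'
        · exact Or.inr (Or.inr ⟨i.natAbs - 1, by omega, by omega⟩)
        · exact Or.inl h'
        · exact Or.inr (Or.inl ⟨i.natAbs - 1, by omega, by omega⟩)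
      · rintro (rfl | ⟨j, hj, rfl⟩ | ⟨j, hj, rfl⟩) <;> omega
    rw [hset, sum_insert (by
      simp only [mem_union, mem_image, mem_range, not_or, not_exists, not_and]
      exact ⟨fun p _ => by omega, fun p _ => by omega⟩), sum_union (by
        rw [disjoint_left]; intro x hx hx'; simp only [mem_image] at hx hx'
        obtain ⟨p, -, rfl⟩ := hx; obtain ⟨q, -, hq⟩ := hx'; omega),
      sum_image (fun p _ q _ h => by simpa using h), sum_image (fun p _ q _ h => by simpa using h)]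
    have e : ∀ k : ℕ, ((((k : ℤ) + 1).natAbs : ℕ) : ℝ) = (k : ℝ) + 1 := fun k => by
      rw [show ((k : ℤ) + 1).natAbs = k + 1 by omega]; push_cast; ring
    have e' : ∀ k : ℕ, max (1 : ℝ) ((k : ℝ) + 1) = (k : ℝ) + 1 := fun k =>
      max_eq_right (by linarith [(Nat.cast_nonneg k : (0 : ℝ) ≤ k)])
    simp only [Int.natAbs_zero, Nat.cast_zero, Int.natAbs_neg, e, e',
      max_eq_left (zero_le_one' ℝ), Real.one_rpow]
    linarith
  have hs := sum_pow_neg_le hη hη1 n
  have hp : 1 ≤ (n : ℝ) ^ (1 - η) := Real.one_le_rpow hn0 (by linarith)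
  have hp' : (n : ℝ) ^ (1 - η) ≤ (n : ℝ) ^ (1 - η) / (1 - η) :=
    le_div_self (by linarith) (by linarith) (by linarith)
  rw [hcard]
  refine (mul_le_mul (show (2 * n + 1 : ℝ) ≤ 3 * n by linarith)
    (hsplit.trans (show (1 + 2 * _ : ℝ) ≤ 4 * ((n : ℝ) ^ (1 - η) / (1 - η)) by linarith))
    (sum_nonneg fun _ _ => by positivity) (by linarith)).trans (le_of_eq ?_)
  rw [show (2 : ℝ) - η = 1 + (1 - η) by ring, Real.rpow_add (by linarith), Real.rpow_one]
  ring

/-- The susceptibility below a point with power-law decay. -/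
lemma chi_improved {η η₀ B B' : ℝ} (hη0 : 0 ≤ η₀) (hη : η₀ < η) (hη1 : η₀ < 1)
    (hB : 0 < B) (hBB : B < B') (hlt : η * (2 * Real.pi * B * Cinf B' (1, 0)) < 1) :
    ∃ C : ℝ, 0 < C ∧ ∀ b, 0 < b → b ≤ B → 0 < mass b → ∀ R (u : ↥(box R)),
      ∑ v, cbox R b u v ≤ C * (min 1 (mass b)) ^ (-(2 - η₀)) := by
  obtain ⟨K₀, hK₀, hpow⟩ := Cinf_power_bound hB hBB (hη0.trans hη.le) hlt
  set s := 1 - η₀ / η with hs
  have hηpos : 0 < η := lt_of_le_of_lt hη0 hη
  have hs0 : 0 < s := by rw [hs, sub_pos, div_lt_one hηpos]; exact hη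
  have hs1 : s ≤ 1 := by rw [hs]; linarith [div_nonneg hη0 hηpos.le]
  set C := K₀ * (12 / (1 - η₀)) * (2 : ℝ) ^ (2 - η₀) + K₀ * 36 / s ^ 2 with hC
  have hη₀1 : 0 < 1 - η₀ := by linarith
  refine ⟨C, by positivity, fun b hb hbB hm R u => ?_⟩
  set μ := min 1 (mass b) with hμ
  have hμ0 : 0 < μ := lt_min one_pos hm
  have hμ1 : μ ≤ 1 := min_le_left _ _
  set n := ⌈1 / μ⌉₊ with hn
  have hn1 : 1 ≤ n := Nat.ceil_pos.mpr (by positivity)
  have hnlow : 1 / μ ≤ n := Nat.le_ceil _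
  have hnup : (n : ℝ) ≤ 2 / μ := by
    have h1 := Nat.ceil_lt_add_one (show 0 ≤ 1 / μ by positivity)
    have h2 : 1 ≤ 1 / μ := by rw [le_div_iff₀ hμ0]; linarith
    have h3 : 2 / μ = 1 / μ + 1 / μ := by ring
    rw [hn]; linarith
  set f : ↥(box R) → ℤ × ℤ := fun v => v.1 - u.1 with hf
  have hfinj : Function.Injective f := fun p q h => Subtype.ext (sub_left_injective h)
  set G : ↥(box R) → ℝ := fun v => cbox R b u v with hG
  have hG0 : ∀ v, 0 ≤ G v := fun v => cbox_nonneg hb.le u v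
  have hGpow : ∀ v, G v * max 1 (nrm (f v) : ℝ) ^ η ≤ K₀ := fun v =>
    (mul_le_mul_of_nonneg_right ((cbox_mono hb.le hbB u v).trans (cbox_le_Cinf_sub hB.le u v))
      (by positivity)).trans (hpow _)
  have hpowle : ∀ v (k : ℝ), 1 ≤ k → k ≤ max 1 (nrm (f v) : ℝ) → G v ≤ K₀ * k ^ (-η) := by
    intro v k hk hkv
    rw [Real.rpow_neg (by linarith), ← div_eq_mul_inv, le_div_iff₀ (by positivity)]
    exact le_trans (mul_le_mul_of_nonneg_left
      (Real.rpow_le_rpow (by linarith) hkv (by linarith)) (hG0 v)) (hGpow v)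
  rw [← sum_filter_add_sum_filter_not univ (fun v : ↥(box R) => nrm (f v) ≤ n)]
  have hμpow : (0 : ℝ) < μ ^ (-(2 - η₀)) := Real.rpow_pos_of_pos hμ0 _
  have hnear : ∑ v ∈ univ.filter (fun v : ↥(box R) => nrm (f v) ≤ n), G v
      ≤ K₀ * (12 / (1 - η₀)) * (2 : ℝ) ^ (2 - η₀) * μ ^ (-(2 - η₀)) := by
    calc ∑ v ∈ univ.filter (fun v : ↥(box R) => nrm (f v) ≤ n), G v
        ≤ ∑ v ∈ univ.filter (fun v : ↥(box R) => nrm (f v) ≤ n),
          K₀ * max 1 (nrm (f v) : ℝ) ^ (-η₀) := by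
          refine sum_le_sum fun v _ => (hpowle v _ (le_max_left _ _) le_rfl).trans ?_
          refine mul_le_mul_of_nonneg_left ?_ (by linarith)
          exact Real.rpow_le_rpow_of_exponent_le (le_max_left _ _) (by linarith)
      _ ≤ ∑ z ∈ Icc (-(n : ℤ)) n ×ˢ Icc (-(n : ℤ)) n, K₀ * max 1 (nrm z : ℝ) ^ (-η₀) := by
          rw [← sum_image (f := fun z => K₀ * max 1 (nrm z : ℝ) ^ (-η₀)) (g := f)
            (fun p _ q _ h => hfinj h)]
          refine sum_le_sum_of_subset_of_nonneg (fun z hz => ?_) fun z _ _ =>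
            mul_nonneg (by linarith) (by positivity)
          obtain ⟨v, hv, rfl⟩ := mem_image.mp hz
          have hv' := (mem_filter.mp hv).2
          simp only [nrm] at hv'
          simp only [mem_product, mem_Icc]
          omega
      _ ≤ K₀ * (12 / (1 - η₀) * (n : ℝ) ^ (2 - η₀)) := by
          rw [← mul_sum]
          exact mul_le_mul_of_nonneg_left (sum_square_le hη0 hη1 hn1) (by linarith)
      _ ≤ K₀ * (12 / (1 - η₀) * (2 / μ) ^ (2 - η₀)) :=
          mul_le_mul_of_nonneg_left (mul_le_mul_of_nonneg_left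
            (Real.rpow_le_rpow (Nat.cast_nonneg n) hnup (by linarith)) (by positivity)) (by linarith)
      _ = _ := by
          rw [Real.div_rpow zero_le_two hμ0.le, Real.rpow_neg hμ0.le]
          ring
  have hfar : ∑ v ∈ univ.filter (fun v : ↥(box R) => ¬ nrm (f v) ≤ n), G v
      ≤ K₀ * 36 / s ^ 2 * μ ^ (-(2 - η₀)) := by
    set q := Real.exp (-(μ / 2)) with hq
    set p := q ^ s with hp
    have hp_eq : p = Real.exp (-(μ * s / 2)) := by
      rw [hp, hq, ← Real.exp_mul]; ring_nf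
    have hp1 : p ≤ 1 - μ * s / 3 := by
      have hms : μ * s ≤ 1 := mul_le_one₀ hμ1 hs0.le hs1
      have hms0 : 0 ≤ μ * s := by positivity
      have h1 := Real.add_one_le_exp (μ * s / 2)
      have h2 : p * Real.exp (μ * s / 2) = 1 := by rw [hp_eq, ← Real.exp_add]; simp
      have hp0 : 0 ≤ p := by rw [hp_eq]; positivity
      nlinarith
    have hplt : p < 1 := by have : 0 < μ * s := by positivity
                            linarith
    have hp0 : 0 ≤ p := by rw [hp_eq]; positivity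
    have hterm : ∀ v, ¬ nrm (f v) ≤ n →
        G v ≤ K₀ * μ ^ η₀ * (p ^ (f v).1.natAbs * p ^ (f v).2.natAbs) := by
      intro v hv
      have hA : G v ≤ K₀ * μ ^ η := by
        have h1 : (1 : ℝ) / μ ≤ max 1 (nrm (f v) : ℝ) :=
          hnlow.trans (le_trans (by exact_mod_cast (Nat.le_of_lt (not_le.mp hv))) (le_max_right _ _))
        have h2 : (1 : ℝ) ≤ 1 / μ := by rw [le_div_iff₀ hμ0]; linarith
        refine (hpowle v _ h2 h1).trans (le_of_eq ?_)
        rw [Real.rpow_neg (by positivity), one_div, Real.inv_rpow hμ0.le, inv_inv]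
      have hD : G v ≤ q ^ (f v).1.natAbs * q ^ (f v).2.natAbs := by
        refine ((cbox_le_Cinf_sub hb.le u v).trans (decay hb _)).trans ?_
        have hmq : Real.exp (-(mass b / 2)) ≤ q :=
          Real.exp_le_exp.mpr (by linarith [min_le_right 1 (mass b)])
        exact mul_le_mul (pow_le_pow_left₀ (Real.exp_pos _).le hmq _)
          (pow_le_pow_left₀ (Real.exp_pos _).le hmq _) (by positivity) (by positivity)
      have hsplit : G v = G v ^ (1 - s) * G v ^ s := by
        rw [← Real.rpow_add' (hG0 v) (by norm_num), sub_add_cancel, Real.rpow_one]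
      rw [hsplit]
      refine mul_le_mul ?_ ?_ (Real.rpow_nonneg (hG0 v) _) (by positivity)
      · refine (Real.rpow_le_rpow (hG0 v) hA (by linarith)).trans ?_
        rw [Real.mul_rpow (by linarith) (by positivity), ← Real.rpow_mul hμ0.le,
          show η * (1 - s) = η₀ by rw [hs]; field_simp; ring]
        refine mul_le_mul_of_nonneg_right ?_ (by positivity)
        calc K₀ ^ (1 - s) ≤ K₀ ^ (1 : ℝ) := Real.rpow_le_rpow_of_exponent_le hK₀ (by linarith)
          _ = K₀ := Real.rpow_one K₀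
      · refine (Real.rpow_le_rpow (hG0 v) hD hs0.le).trans (le_of_eq ?_)
        have hq0 : 0 ≤ q := (Real.exp_pos _).le
        rw [Real.mul_rpow (by positivity) (by positivity), hp, ← Real.rpow_natCast_mul hq0,
          ← Real.rpow_natCast_mul hq0, ← Real.rpow_mul_natCast hq0, ← Real.rpow_mul_natCast hq0,
          mul_comm s, mul_comm s]
    calc ∑ v ∈ univ.filter (fun v : ↥(box R) => ¬ nrm (f v) ≤ n), G v
        ≤ ∑ v ∈ univ.filter (fun v : ↥(box R) => ¬ nrm (f v) ≤ n),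
          K₀ * μ ^ η₀ * (p ^ (f v).1.natAbs * p ^ (f v).2.natAbs) :=
          sum_le_sum fun v hv => hterm v (mem_filter.mp hv).2
      _ ≤ K₀ * μ ^ η₀ * ((6 / (μ * s)) * (6 / (μ * s))) := by
          rw [← mul_sum]
          refine mul_le_mul_of_nonneg_left ?_ (by positivity)
          rw [← sum_image (f := fun z : ℤ × ℤ => p ^ z.1.natAbs * p ^ z.2.natAbs) (g := f)
            (fun a _ b _ h => hfinj h)]
          set S := (univ.filter (fun v : ↥(box R) => ¬ nrm (f v) ≤ n)).image f with hS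
          refine (sum_le_sum_of_subset_of_nonneg (t := S.image Prod.fst ×ˢ S.image Prod.snd)
            (fun z hz => mem_product.mpr ⟨mem_image_of_mem _ hz, mem_image_of_mem _ hz⟩)
            fun z _ _ => by positivity).trans ?_
          rw [sum_product]
          simp only [← mul_sum, ← sum_mul]
          have hb2 : 2 / (1 - p) ≤ 6 / (μ * s) := by
            rw [div_le_div_iff₀ (by linarith) (by positivity)]; linarith
          exact mul_le_mul ((geom_finset_le hp0 hplt _).trans hb2)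
            ((geom_finset_le hp0 hplt _).trans hb2) (sum_nonneg fun _ _ => pow_nonneg hp0 _)
            (by positivity)
      _ = _ := by
          rw [show -(2 - η₀) = η₀ - (2 : ℕ) by push_cast; ring, Real.rpow_sub_natCast hμ0.ne']
          ring
  rw [hC, add_mul]
  exact add_le_add hnear hfar

/-- A better than mean-field bound on the inverse correlation length. -/
theorem mass_nu_bound {η₀ B B' : ℝ} (hη0 : 0 ≤ η₀) (hη1 : η₀ < 1) (hB : 0 < B) (hBB : B < B')
    (hlt : η₀ * (2 * Real.pi * B * Cinf B' (1, 0)) < 1) :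
    ∃ K : ℝ, 0 < K ∧ ∀ b b', 0 < b → b ≤ B → b < b' → mass b' = 0 →
      min 1 (mass b) ≤ K * (b' - b) ^ (1 / (2 - η₀)) := by
  set e := 2 * Real.pi * B * Cinf B' (1, 0) with he
  have he0 : 0 < e := by have := Cinf_e1_pos (hB.trans hBB); positivity
  have he1 : η₀ * e < 1 := hlt
  obtain ⟨η, hη, hηe⟩ : ∃ η, η₀ < η ∧ η * e < 1 :=
    ⟨(η₀ + 1 / e) / 2, by linarith [(lt_div_iff₀ he0).mpr he1],
      by rw [div_mul_eq_mul_div, add_mul, one_div_mul_cancel he0.ne']; linarith⟩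
  obtain ⟨C, hC0, hC⟩ := chi_improved hη0 hη hη1 hB hBB hηe
  set ν := 1 / (2 - η₀) with hν
  refine ⟨(8 * C + 1) ^ ν, by positivity, fun b b' hb hbB hbb hm => ?_⟩
  rcases (mass_nonneg hb).eq_or_lt with h | h
  · rw [← h, min_eq_right zero_le_one]
    exact mul_nonneg (by positivity) (Real.rpow_nonneg (by linarith) _)
  set μ := min 1 (mass b) with hμ
  have hμ0 : 0 < μ := lt_min one_pos h
  have hge : 1 ≤ 8 * (b' - b) * (C * μ ^ (-(2 - η₀))) := by
    by_contra hΔ
    push Not at hΔ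
    have hX : ∀ R (u : ↥(box R)), ∑ v, cbox R b' u v ≤ 2 * (C * μ ^ (-(2 - η₀))) := fun R =>
      chi_stable hb.le hbb.le (by positivity) (fun u => hC b hb hbB h R u) hΔ
    have := mass_pos_of_chi (hb.trans hbb) hX
    linarith
  have hpos : 0 < μ ^ (2 - η₀) := Real.rpow_pos_of_pos hμ0 _
  have hle : μ ^ (2 - η₀) ≤ (8 * C + 1) * (b' - b) := by
    rw [Real.rpow_neg hμ0.le, ← mul_assoc, ← div_eq_mul_inv, le_div_iff₀ hpos] at hge
    linarith
  calc μ = (μ ^ (2 - η₀)) ^ ν := by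
        rw [← Real.rpow_mul hμ0.le, hν, mul_one_div, div_self (by linarith : (2 - η₀) ≠ 0),
          Real.rpow_one]
    _ ≤ ((8 * C + 1) * (b' - b)) ^ ν :=
        Real.rpow_le_rpow hpos.le hle (one_div_nonneg.mpr (by linarith))
    _ = _ := Real.mul_rpow (by positivity) (by linarith)

end Vale.Agent.P159
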