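import Vale.Agent.P159.Ineq

namespace Vale.Agent.P159

open MeasureTheory Finset Filter Topology

variable {V : Type} [Fintype V]

/-- The turn corresponding to `t` radians times the profile `a`. -/
noncomputable def shiftBy (a : V → ℝ) (t : ℝ) : V → Turn := fun i => ((t * a i / (2 * Real.pi) : ℝ) : Turn)

lemma cs_coe (r : ℝ) : cs (r : Turn) = Real.cos (2 * Real.pi * r) := by
  simp [cs, AddCircle.toCircle_apply_mk, Circle.coe_exp, Complex.exp_re]

lemma sn_coe (r : ℝ) : sn (r : Turn) = Real.sin (2 * Real.pi * r) := by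
  simp [sn, AddCircle.toCircle_apply_mk, Circle.coe_exp, Complex.exp_im]

omit [Fintype V] in
lemma shiftBy_sub (a : V → ℝ) (t : ℝ) (x y : V) :
    cs (shiftBy a t x - shiftBy a t y) = Real.cos (t * (a x - a y)) ∧
      sn (shiftBy a t x - shiftBy a t y) = Real.sin (t * (a x - a y)) := by
  unfold shiftBy
  rw [← AddCircle.coe_sub, cs_coe, sn_coe]
  have h : 2 * Real.pi * (t * a x / (2 * Real.pi) - t * a y / (2 * Real.pi)) = t * (a x - a y) := by
    field_simp
  rw [h]
  exact ⟨rfl, rfl⟩

/-- The exponent of the weight after rotating the angles by `τ a`. -/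
noncomputable def rotHam (J : V → V → ℝ) (a : V → ℝ) (τ : ℂ) (θ : V → Turn) : ℂ :=
  ∑ x, ∑ y, (J x y : ℂ) * ((cs (θ x - θ y) : ℂ) * Complex.cos (τ * ((a x - a y : ℝ) : ℂ))
    - (sn (θ x - θ y) : ℂ) * Complex.sin (τ * ((a x - a y : ℝ) : ℂ)))

/-- The observable times the weight after rotating the angles by `τ a`. -/
noncomputable def rotInt (J : V → V → ℝ) (a : V → ℝ) (u v : V) (τ : ℂ) (θ : V → Turn) : ℂ :=
  ((cs (θ u - θ v) : ℂ) + Complex.I * (sn (θ u - θ v) : ℂ))
    * Complex.exp (Complex.I * τ * ((a u - a v : ℝ) : ℂ) + rotHam J a τ θ)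

/-- The derivative of `rotInt` in the rotation parameter. -/
noncomputable def rotInt' (J : V → V → ℝ) (a : V → ℝ) (u v : V) (τ : ℂ) (θ : V → Turn) : ℂ :=
  rotInt J a u v τ θ * (Complex.I * ((a u - a v : ℝ) : ℂ) +
    ∑ x, ∑ y, (J x y : ℂ) * ((cs (θ x - θ y) : ℂ) *
        (-Complex.sin (τ * ((a x - a y : ℝ) : ℂ)) * ((a x - a y : ℝ) : ℂ))
      - (sn (θ x - θ y) : ℂ) * (Complex.cos (τ * ((a x - a y : ℝ) : ℂ)) * ((a x - a y : ℝ) : ℂ))))

variable (J : V → V → ℝ) (a : V → ℝ) (u v : V)

omit [Fintype V] in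
lemma continuous_csd (x y : V) : Continuous fun θ : V → Turn => (cs (θ x - θ y) : ℂ) :=
  Complex.continuous_ofReal.comp (continuous_cs.comp ((continuous_apply x).sub (continuous_apply y)))

omit [Fintype V] in
lemma continuous_snd' (x y : V) : Continuous fun θ : V → Turn => (sn (θ x - θ y) : ℂ) :=
  Complex.continuous_ofReal.comp (continuous_sn.comp ((continuous_apply x).sub (continuous_apply y)))

lemma continuous_rotHam : Continuous fun p : ℂ × (V → Turn) => rotHam J a p.1 p.2 := by
  unfold rotHam
  refine continuous_finsetSum _ fun x _ => continuous_finsetSum _ fun y _ => ?_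
  have h1 := (continuous_csd x y).comp (continuous_snd (X := ℂ))
  have h2 := (continuous_snd' x y).comp (continuous_snd (X := ℂ))
  simp only [Function.comp_def] at h1 h2
  fun_prop

lemma continuous_rotInt : Continuous fun p : ℂ × (V → Turn) => rotInt J a u v p.1 p.2 := by
  unfold rotInt
  have h1 := (continuous_csd u v).comp (continuous_snd (X := ℂ))
  have h2 := (continuous_snd' u v).comp (continuous_snd (X := ℂ))
  have h3 := continuous_rotHam J a
  simp only [Function.comp_def] at h1 h2
  fun_prop

lemma continuous_rotInt' : Continuous fun p : ℂ × (V → Turn) => rotInt' J a u v p.1 p.2 := by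
  unfold rotInt'
  refine (continuous_rotInt J a u v).mul (continuous_const.add ?_)
  refine continuous_finsetSum _ fun x _ => continuous_finsetSum _ fun y _ => ?_
  have h1 := (continuous_csd x y).comp (continuous_snd (X := ℂ))
  have h2 := (continuous_snd' x y).comp (continuous_snd (X := ℂ))
  simp only [Function.comp_def] at h1 h2
  fun_prop

lemma hasDerivAt_rotInt (θ : V → Turn) (τ : ℂ) :
    HasDerivAt (fun τ => rotInt J a u v τ θ) (rotInt' J a u v τ θ) τ := by
  have hlin : ∀ d : ℂ, HasDerivAt (fun τ : ℂ => τ * d) d τ := fun d => by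
    simpa using (hasDerivAt_id τ).mul_const d
  have hsum : HasDerivAt (fun τ => rotHam J a τ θ)
      (∑ x, ∑ y, (J x y : ℂ) * ((cs (θ x - θ y) : ℂ) *
          (-Complex.sin (τ * ((a x - a y : ℝ) : ℂ)) * ((a x - a y : ℝ) : ℂ))
        - (sn (θ x - θ y) : ℂ) * (Complex.cos (τ * ((a x - a y : ℝ) : ℂ)) * ((a x - a y : ℝ) : ℂ)))) τ := by
    unfold rotHam
    refine HasDerivAt.fun_sum fun x _ => HasDerivAt.fun_sum fun y _ => ?_
    exact (((hlin _).ccos.const_mul _).sub ((hlin _).csin.const_mul _)).const_mul _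
  have h0 : HasDerivAt (fun τ : ℂ => Complex.I * τ * ((a u - a v : ℝ) : ℂ))
      (Complex.I * ((a u - a v : ℝ) : ℂ)) τ := by
    simpa using ((hasDerivAt_id τ).const_mul Complex.I).mul_const ((a u - a v : ℝ) : ℂ)
  have := ((h0.add hsum).cexp.const_mul ((cs (θ u - θ v) : ℂ) + Complex.I * (sn (θ u - θ v) : ℂ)))
  refine this.congr_deriv ?_
  unfold rotInt' rotInt
  simp only [Pi.add_apply]
  ring

omit [Fintype V] in
/-- Differentiation under the integral on a compact space. -/
lemma differentiable_integral_compact {X : Type} [TopologicalSpace X] [CompactSpace X]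
    [MeasurableSpace X] [OpensMeasurableSpace X] (μ : Measure X) [IsFiniteMeasure μ]
    (F F' : ℂ → X → ℂ) (hc : Continuous fun p : ℂ × X => F p.1 p.2)
    (hc' : Continuous fun p : ℂ × X => F' p.1 p.2)
    (hd : ∀ x τ, HasDerivAt (fun τ => F τ x) (F' τ x) τ) :
    Differentiable ℂ fun τ => ∫ x, F τ x ∂μ := by
  intro τ₀
  have hK : IsCompact (Metric.closedBall τ₀ 1 ×ˢ (Set.univ : Set X)) :=
    (isCompact_closedBall _ _).prod isCompact_univ
  obtain ⟨M, hM⟩ := hK.exists_bound_of_continuousOn hc'.continuousOn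
  have hc0 : ∀ τ, Continuous fun x => F τ x := fun τ =>
    hc.comp (continuous_const.prodMk continuous_id)
  have hc1 : Continuous fun x => F' τ₀ x := hc'.comp (continuous_const.prodMk continuous_id)
  have h := hasDerivAt_integral_of_dominated_loc_of_deriv_le (μ := μ)
    (F := F) (F' := F')
    (bound := fun _ => M) (x₀ := τ₀) (Metric.closedBall_mem_nhds τ₀ one_pos)
    (Eventually.of_forall fun τ => (hc0 τ).aestronglyMeasurable)
    ((hc0 τ₀).integrable_of_hasCompactSupport (HasCompactSupport.of_compactSpace _))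
    hc1.aestronglyMeasurable
    (Eventually.of_forall fun θ τ hτ => hM (τ, θ) ⟨hτ, trivial⟩)
    (integrable_const M)
    (Eventually.of_forall fun θ τ _ => hd θ τ)
  exact h.2.differentiableAt

lemma rot_differentiable : Differentiable ℂ fun τ => ∫ θ, rotInt J a u v τ θ :=
  differentiable_integral_compact (volume : Measure (V → Turn))
    (fun τ θ => rotInt J a u v τ θ) (fun τ θ => rotInt' J a u v τ θ)
    (continuous_rotInt J a u v) (continuous_rotInt' J a u v) (hasDerivAt_rotInt J a u v)

lemma rot_real (t : ℝ) (θ : V → Turn) :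
    rotInt J a u v (t : ℂ) θ = rotInt J a u v 0 (θ + shiftBy a t) := by
  have h : ∀ x y : V, cs ((θ + shiftBy a t) x - (θ + shiftBy a t) y)
      = cs (θ x - θ y) * Real.cos (t * (a x - a y)) - sn (θ x - θ y) * Real.sin (t * (a x - a y)) ∧
      sn ((θ + shiftBy a t) x - (θ + shiftBy a t) y)
      = sn (θ x - θ y) * Real.cos (t * (a x - a y)) + cs (θ x - θ y) * Real.sin (t * (a x - a y)) := by
    intro x y
    rw [Pi.add_apply, Pi.add_apply, add_sub_add_comm, cs_add, sn_add, (shiftBy_sub a t x y).1,
      (shiftBy_sub a t x y).2]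
    exact ⟨rfl, rfl⟩
  unfold rotInt rotHam
  simp only [(h _ _).1, (h _ _).2, zero_mul, mul_zero, Complex.cos_zero, Complex.sin_zero,
    sub_zero, mul_one, zero_add]
  rw [Complex.exp_add, ← mul_assoc, mul_comm Complex.I (t : ℂ), mul_right_comm (t : ℂ),
    ← Complex.ofReal_mul, Complex.exp_mul_I, ← Complex.ofReal_cos, ← Complex.ofReal_sin]
  simp only [← Complex.ofReal_mul, ← Complex.ofReal_cos, ← Complex.ofReal_sin]
  push_cast
  congr 1
  linear_combination ((sn (θ u - θ v) : ℂ) * Complex.sin ((t : ℂ) * ((a u : ℂ) - (a v : ℂ)))) * Complex.I_mul_I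

lemma rot_const (τ : ℂ) : ∫ θ, rotInt J a u v τ θ = ∫ θ, rotInt J a u v 0 θ := by
  set Φ : ℂ → ℂ := fun τ => ∫ θ, rotInt J a u v τ θ with hΦ
  have hreal : ∀ t : ℝ, Φ (t : ℂ) = Φ 0 := by
    intro t
    simp only [hΦ, rot_real J a u v t]
    exact integral_add_right_eq_self (fun θ => rotInt J a u v 0 θ) _
  have han : AnalyticOnNhd ℂ Φ Set.univ := fun z _ => (rot_differentiable J a u v).analyticAt z
  have hfreq : ∃ᶠ z in 𝓝[≠] (0 : ℂ), Φ z = Φ 0 := by
    have ht : Tendsto (fun n : ℕ => ((1 / (n + 1 : ℝ) : ℝ) : ℂ)) atTop (𝓝[≠] (0 : ℂ)) := by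
      refine tendsto_nhdsWithin_iff.mpr ⟨?_, Eventually.of_forall fun n => ?_⟩
      · have h := (Complex.continuous_ofReal.tendsto (0 : ℝ)).comp
          tendsto_one_div_add_atTop_nhds_zero_nat
        simpa [Function.comp_def] using h
      · simp only [Set.mem_compl_iff, Set.mem_singleton_iff, Complex.ofReal_eq_zero]
        positivity
    exact ht.frequently (Frequently.of_forall fun n => hreal _)
  exact congrFun (han.eq_of_frequently_eq analyticOnNhd_const hfreq) τ

/-- Complex rotation of the angles bounds the correlation by a modified partition function. -/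
lemma num_le_rot :
    num J (obs u v) ≤ Real.exp (-(a u - a v)) * part fun x y => J x y * Real.cosh (a x - a y) := by
  have h0 : num J (obs u v) = (∫ θ, rotInt J a u v 0 θ).re := by
    have hi : Integrable fun θ => rotInt J a u v 0 θ :=
      ((continuous_rotInt J a u v).comp (continuous_const.prodMk continuous_id)
        ).integrable_of_hasCompactSupport (HasCompactSupport.of_compactSpace _)
    rw [num, ← RCLike.re_to_complex, ← integral_re hi]
    congr 1
    funext θ
    simp only [rotInt, rotHam, ham, obs, zero_mul, mul_zero, Complex.cos_zero, Complex.sin_zero,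
      sub_zero, mul_one, zero_add, RCLike.re_to_complex]
    simp only [← Complex.ofReal_mul, ← Complex.ofReal_sum, ← Complex.ofReal_exp,
      Complex.add_re, Complex.mul_re, Complex.ofReal_re, Complex.ofReal_im, Complex.add_im,
      Complex.mul_im, Complex.I_re, Complex.I_im]
    ring
  rw [h0, ← rot_const J a u v Complex.I, part, ← integral_const_mul]
  refine (Complex.re_le_norm _).trans ((norm_integral_le_integral_norm _).trans ?_)
  refine integral_mono ?_ (continuous_integrable (continuous_const.mul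
    (continuous_wgt fun x y => J x y * Real.cosh (a x - a y)))) fun θ => le_of_eq ?_
  · exact (((continuous_rotInt J a u v).comp (continuous_const.prodMk continuous_id)).norm
      ).integrable_of_hasCompactSupport (HasCompactSupport.of_compactSpace _)
  unfold rotInt
  rw [norm_mul, Complex.norm_exp]
  have h1 : ‖(cs (θ u - θ v) : ℂ) + Complex.I * (sn (θ u - θ v) : ℂ)‖ = 1 := by
    rw [mul_comm, Complex.norm_add_mul_I, cs_sq_add_sn_sq, Real.sqrt_one]
  rw [h1, one_mul, ← Real.exp_add]
  congr 1
  simp only [rotHam, ham, Complex.add_re, Complex.re_sum, ]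
  congr 1
  · simp
  · refine sum_congr rfl fun x _ => sum_congr rfl fun y _ => ?_
    rw [mul_comm Complex.I, Complex.cos_mul_I, Complex.sin_mul_I, ← Complex.ofReal_cosh,
      ← Complex.ofReal_sinh]
    simp only [Complex.mul_re, Complex.sub_re, Complex.mul_im, Complex.sub_im, Complex.ofReal_re,
      Complex.ofReal_im, Complex.I_re, Complex.I_im]
    ring

end Vale.Agent.P159
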